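import Vale.Agent.P167.H975.LkE

/-!
# P167, general `q`, block Q-LAM (LK): comparison of the local expectations
-/

namespace Vale.Agent.P167.H975

open Finset Vale.Agent.P167.BR
open Vale.Agent.P167.E6 (IsPolygon Encloses dir face)
open Vale.Agent.P167.FK (Bq Good Ex)
open Vale.Agent.P167.H135 (shE)
open Vale.Agent.P167.H871 (Bd)
open Vale.Agent.P167.H601.LG (GeoN Spe SepL)
open Vale.Agent.P167.H167.Q (MxA FlR lsd)

variable {D D' : Finset (ℤ × ℤ)} {t c : ℤ × ℤ} {r R : ℤ} {η η' ω ω' : Cfg} {Q ε θ β : ℝ}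
  {N N' n₀ n₀' k k' : ℕ} {q : ZMod N → ℤ × ℤ} {q' : ZMod N' → ℤ × ℤ} {τ τ' : ℕ → ℤ}

theorem IM.le {σ : ℕ → ℕ} (h : IM q k τ q' k' τ' c t R σ) (hr : r ≤ R) :
    IM q k τ q' k' τ' c t r σ := by
  have hs : ∀ v, v ∈ Bq c r → v ∈ Bq c R := by
    intro v hv
    rw [lkBq] at *
    omega
  exact ⟨fun j hj hb => h.map j hj (hs _ hb), fun i j hj hij hi hb =>
    h.mono i j hj hij (hs _ hi) (hs _ hb)⟩

/-- Outside squares of one colour. -/
theorem hout_one {b : Bool} (h : ∀ v ∈ Bq c R, v ∉ D → η v = b)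
    (h' : ∀ v ∈ Bq (c + t) R, v ∉ D' → η' v = b) (hA : Agr D D' c t R) :
    ∀ v ∈ Bq c R, v ∉ D → η' (v + t) = η v := fun v hv hvD => by
  rw [h v hv hvD]
  exact h' _ (lkBq_add.2 hv) fun hc => hvD ((hA v hv).2 hc)

/-- Outside squares of two colours, separated on the side. -/
theorem hout_flr {i : Fin 4} {z : ℤ × ℤ} {pl pr : Bool} (h : FlR i D η c R z pl pr)
    (h' : FlR i D' η' (c + t) R (z + t) pl pr) (hA : Agr D D' c t R) :
    ∀ v ∈ Bq c R, v ∉ D → η' (v + t) = η v := fun v hv hvD => by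
  rw [h.out v hv hvD, h'.out _ (lkBq_add.2 hv) fun hc => hvD ((hA v hv).2 hc)]
  have e : lsd i (z + t) (v + t) ↔ lsd i z v := by
    unfold lsd
    fin_cases i <;> simp
  by_cases hl : lsd i z v
  · rw [if_pos hl, if_pos (e.2 hl)]
  · rw [if_neg hl, if_neg fun h => hl (e.1 h)]

section

variable (hG : GeoN n₀ N q τ) (hG' : GeoN n₀' N' q' τ') (hq : IsPolygon q)
  (hD : Encloses q D) (hq' : IsPolygon q') (hD' : Encloses q' D')
  (hu : Bd (D : Set (ℤ × ℤ)) N (fun j => q (j : ZMod N)) τ 1)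
  (hu' : Bd (D' : Set (ℤ × ℤ)) N' (fun j => q' (j : ZMod N')) τ' 1) {L L' : ℕ}
  (hS : SepL L N τ k) (hS' : SepL L' N' τ' k') (hR1 : 1 ≤ R) (h3 : 3 * (R + 1) < n₀)
  (h3' : 3 * (R + 1) < n₀') (hL : 2 * (R + 1) < L) (hL' : 2 * (R + 1) < L') {j j' : ℕ}
  (hj : j < N) (hj' : j' < N') (hs : Spe τ k j) (hs' : Spe τ' k' j')
  (h : SameT N k τ j N' k' τ' j')
  (ht : Even ((q' (j' : ZMod N') - q (j : ZMod N)).1 + (q' (j' : ZMod N') - q (j : ZMod N)).2))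
  (hc : Real.cos θ ≠ 0) (hr : r + 1 ≤ R)
include hG hG' hq hD hq' hD' hu hu' hS hS' hR1 h3 h3' hL hL' hj hj' hs hs' h ht hc hr

/-- **The products agree.** -/
theorem lk_tr (hω : ∀ v ∈ Bq (q (j : ZMod N)) r, v ∈ D →
    ω' (v + (q' (j' : ZMod N') - q (j : ZMod N))) = ω v) :
    TX (wJ θ β q' D' k' τ') D' (q' (j' : ZMod N')) r ω' =
      TX (wJ θ β q D k τ) D (q (j : ZMod N)) r ω := by
  obtain ⟨hA, σ, hσ⟩ := sameT_loc hG hG' hq hD hq' hD' hu hu' hS hS' hR1 h3 h3' hL hL' hj hj' hs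
    hs' h
  have hw := TX_tr ht (hA.mono hr) hω (w := wJ θ β q D k τ) (w' := wJ θ β q' D' k' τ')
    fun A hA' hB => wJ_tr hc hq hD hq' hD' ht (hA.mono hr) (hσ.le (by omega)) hA' hB
  rwa [show q (j : ZMod N) + (q' (j' : ZMod N') - q (j : ZMod N)) = q' (j' : ZMod N') by abel]
    at hw

/-- **Comparison of the expectations.** -/
theorem lk_cmp (hQ : 1 ≤ Q) (hε : 0 ≤ ε) (hM : MxA Q D η (q (j : ZMod N)) r R ε) (hη : Good η)
    (hη' : Good η') (hout : ∀ v ∈ Bq (q (j : ZMod N)) R, v ∉ D →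
      η' (v + (q' (j' : ZMod N') - q (j : ZMod N))) = η v)
    (h0 : ∀ ω, 0 ≤ TX (wJ θ β q D k τ) D (q (j : ZMod N)) r ω) :
    |Ex Q D η (TX (wJ θ β q D k τ) D (q (j : ZMod N)) r) -
        Ex Q D' η' (TX (wJ θ β q' D' k' τ') D' (q' (j' : ZMod N')) r)| ≤
      ε * Ex Q D' η' (TX (wJ θ β q' D' k' τ') D' (q' (j' : ZMod N')) r) := by
  obtain ⟨hA, σ, hσ⟩ := sameT_loc hG hG' hq hD hq' hD' hu hu' hS hS' hR1 h3 h3' hL hL' hj hj' hs
    hs' h
  have hw := TX_cmp hQ hε hM hη hη' ht hr hA hout (w := wJ θ β q D k τ)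
    (w' := wJ θ β q' D' k' τ') h0
    fun ω A hA' hB => wJ_tr hc hq hD hq' hD' ht (hA.mono hr) (hσ.le (by omega)) hA' hB
  rwa [show q (j : ZMod N) + (q' (j' : ZMod N') - q (j : ZMod N)) = q' (j' : ZMod N') by abel]
    at hw

end

end Vale.Agent.P167.H975
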