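import Vale.Agent.P167.H975.LfB
import Vale.Agent.P167.H975.LkF

/-!
# P167, general `q`, block Q-LAM (LF): the local factor at a flat base is an indicator
-/

namespace Vale.Agent.P167.H975

open Finset Relation Vale.Agent.P145.FB
open Vale.Agent.P167 Vale.Agent.P167.BR Vale.Agent.P167.FK
open Vale.Agent.P167.E6 (IsPolygon Encloses face dir)
open Vale.Agent.P167.H632 (cs pr)
open Vale.Agent.P167.H718 (IsXY IsCl Cl rc isCl_strand)
open Vale.Agent.P167.QX (lo hi exists_xy lo_xy hi_xy wB)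
open Vale.Agent.P167.H685.LD
open Vale.Agent.P167.H871 (Bd)
open Vale.Agent.P167.H601.LG (GeoN Spe SepL eq_of_noSpe turn_base nm_of_Bq Kt Fw near_base feet
  sin_pos' sin2_pos wJ_cl wJ_ot)

variable {N k s : ℕ} {q : ZMod N → ℤ × ℤ} {D : Finset (ℤ × ℤ)} {R ρ r : ℤ} {ω : Cfg} {A : Finset Ed}
  {e f : Bool} {x y : ℕ} {τ : ℕ → ℤ} {θ β : ℝ} {n₀ L : ℕ}

/-- A strand over the flat base has the turning `4`. -/
theorem turn_over (hG : GeoN n₀ N q τ) (hq : IsPolygon q) (hD : Encloses q D) (hA : A ∈ pcs ω D)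
    (hl : ¬ IsLp D A) (hS : SepL L N τ k) (hfl : τ N = τ (N - 1)) (hr : 4 * (r + 1) < n₀)
    (hrL : 2 * (r + 1) < L) (hin : ∀ g ∈ A, hdv g ∈ Bq (q 0) r) (hs1 : 2 * (r + 1) < s)
    (hs2 : 2 * (r + 1) + s < N) (h1 : lo q A < s) (h2 : s ≤ hi q A) :
    τ (hi q A) - τ (lo q A) = 4 := by
  obtain ⟨g1, g2, g3, g4⟩ := feet hq hD hA hl
  have hd : ∀ e ∈ A, nm (hdv e - q ((0 : ℕ) : ZMod N)) ≤ r := fun e he => by
    rw [Nat.cast_zero]
    exact nm_of_Bq (hin e he)
  have hr0 : 0 ≤ r := (H825.Reg.nm_nn _).trans (hd _ g3)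
  have hle := hG.le
  rcases turn_base hG hq hD hA hl (ρ := r) (by omega) hd with h3 | h3 | ⟨h3, h4⟩
  · omega
  · omega
  · have hlow : ∀ i : ℕ, 0 < i → (i : ℤ) ≤ 2 * (r + 1) → ¬ Spe τ k i := by
      intro i i1 i2 i3
      have := (hS 0 i i1 (by omega) (Or.inl rfl) i3).1
      omega
    have hup : ∀ i : ℕ, i < N → (N : ℤ) - i ≤ 2 * (r + 1) → ¬ Spe τ k i := by
      intro i i1 i2 i3
      have := (hS 0 i (by omega) (by omega) (Or.inl rfl) i3).2
      omega
    have e1 : τ (N - 1) = τ (hi q A) := eq_of_noSpe (k := k) (by omega) fun i i1 i2 =>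
      hup i (by omega) (by omega)
    have e2 : τ (lo q A) = τ 0 := eq_of_noSpe (k := k) (Nat.zero_le _) fun i i1 i2 =>
      hlow i (by omega) (by omega)
    have e3 : τ N = τ 0 + 4 := by
      have := hG.per 0
      rwa [zero_add] at this
    rw [← e1, e2, ← hfl, e3]
    ring

/-- The families with the good parity of the base: free with dual base (`e = false`), wired with
primal base (`e = true`). -/
def GoodB (N k : ℕ) (e : Bool) : Prop := (e = false ∧ k = N) ∨ (e = true ∧ k = 0)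

/-- **The local factor at a flat base of the good parity.** -/
theorem TX_base (h0 : 0 < θ) (h1 : θ ≤ Real.pi / 3) (hG : GeoN n₀ N q τ) (hq : IsPolygon q)
    (hD : Encloses q D) (hS : SepL L N τ k) (hfl : τ N = τ (N - 1)) (hk : GoodB N k e)
    (hW : JB q D s R) (hpar : ((q 0).1 + (q 0).2) % 2 = pr e) (hr1 : 1 ≤ r) (hrR : r + 2 ≤ R)
    (hr : 4 * (r + 1) < n₀) (hrL : 4 * (r + 1) < L) (hs1 : 2 * (r + 1) < s)
    (hs2 : 2 * (r + 1) + s < N) :
    TX (wJ θ β q D k τ) D (q 0) r ω = (Ea e D (q 0) r).indicator 1 ω := by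
  classical
  have hsin := sin_pos' h0 h1
  have hsin2 := sin2_pos h0 h1
  have hcos : 0 < Real.cos θ := Real.cos_pos_of_mem_Ioo ⟨by linarith [Real.pi_pos], by
    linarith [Real.pi_pos]⟩
  by_cases hω : ω ∈ Ea e D (q 0) r
  · rw [Set.indicator_of_mem hω, Pi.one_apply]
    unfold TX
    refine prod_eq_one fun A hA => ?_
    rw [mem_filter] at hA
    obtain ⟨hA, hin⟩ := hA
    by_cases hl : IsLp D A
    · exact wJ_lp hq hD hcos.ne' hl hA
    · have hno := not_over hq hD hW hrR hpar hω hA hl hin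
      obtain ⟨g1, g2, g3, g4⟩ := feet hq hD hA hl
      rcases near_base hG hq hD hA hl hS (by rcases hk with ⟨-, h⟩ | ⟨-, h⟩ <;> omega)
        (by omega) hrL hin with ⟨a1, a2⟩ | ⟨⟨a1, a2⟩, -⟩
      · have hF : ¬ (lo q A < k ∧ k ≤ hi q A) := a2
        by_cases hC : IsCl D q k A
        · have := wJ_cl (θ := θ) (β := β) (τ := τ) hl g1.le hF hC
          rw [a1, Int.cast_zero, mul_zero, sub_zero, div_self hsin2.ne'] at this
          exact this
        · have := wJ_ot (θ := θ) (β := β) (τ := τ) hl g1.le hF hC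
          rw [a1, Int.cast_zero, mul_zero, add_zero, div_self hsin.ne'] at this
          exact this
      · exfalso
        apply hno
        constructor <;> omega
  · rw [Set.indicator_of_notMem hω]
    obtain ⟨A, hA, hl, hin, x, y, hxy, hov⟩ := exists_ovB hq hD hW hr1 (by omega) hpar hω
    unfold TX
    refine prod_eq_zero (i := A) (mem_filter.2 ⟨hA, hin⟩) ?_
    obtain ⟨g1, g2, g3, g4⟩ := feet hq hD hA hl
    have elo := lo_xy hq hD hA hxy
    have ehi := hi_xy hq hD hA hxy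
    have hx := hxy.1
    have hy := hxy.2.1
    have hover : lo q A < s ∧ s ≤ hi q A ∧ Cl k x y := by
      rcases hk with ⟨rfl, rfl⟩ | ⟨rfl, rfl⟩
      · simp only [Bool.false_eq_true, if_false] at hov
        refine ⟨by omega, by omega, ?_⟩
        unfold Cl
        omega
      · simp only [if_true] at hov
        refine ⟨by omega, by omega, ?_⟩
        unfold Cl
        omega
    have hK := turn_over hG hq hD hA hl hS hfl hr (by omega) hin hs1 hs2 hover.1 hover.2.1
    have hF : ¬ (lo q A < k ∧ k ≤ hi q A) := by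
      rcases hk with ⟨-, rfl⟩ | ⟨-, rfl⟩ <;> omega
    have hC : IsCl D q k A := (isCl_strand (k := k) hq hD hA hl hxy).2 hover.2.2
    have := wJ_cl (θ := θ) (β := β) (τ := τ) hl g1.le hF hC
    have e4 : Kt q τ A = 4 := hK
    rw [e4] at this
    have e5 : 2 * θ - θ / 2 * ((4 : ℤ) : ℝ) = 0 := by push_cast; ring
    rw [e5, Real.sin_zero, zero_div] at this
    exact this

end Vale.Agent.P167.H975
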