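import Vale.Agent.P167.H975.LkA
import Vale.Agent.P167.H167.Q.JunMix
import Vale.Agent.P167.H685.Q.RecT

/-!
# P167, general `q`, block Q-LAM (LK): products over the pieces in a box

`TX w D c r`: product of the weights `w A` of the pieces `A` all heads of which are in the box
`Bq c r`. It reads only the squares of `D` in the box (`TX_loc`); for two domains which agree near the
box, up to an even translation, the products agree (`TX_tr`), and their expectations are comparable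
(`TX_cmp`).
-/

namespace Vale.Agent.P167.H975

open Finset Vale.Agent.P167.BR
open Vale.Agent.P167.FK (Bq cf Ex Good f_sym)
open Vale.Agent.P167.FKA (Loc)
open Vale.Agent.P167.H135 (shC shE hdv_sh shE_inj shE_neg shC_ev)

variable {ω ω' : Cfg} {D D' B : Finset (ℤ × ℤ)} {e : Ed} {A : Finset Ed} {t c : ℤ × ℤ} {r R : ℤ}

open Classical in
/-- The product over the pieces in the box of radius `r` around `c`. -/
noncomputable def TX (w : Finset Ed → ℝ) (D : Finset (ℤ × ℤ)) (c : ℤ × ℤ) (r : ℤ) (ω : Cfg) : ℝ :=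
  ∏ A ∈ (pcs ω D).filter (fun A => ∀ e ∈ A, hdv e ∈ Bq c r), w A

theorem lkBq {z v : ℤ × ℤ} {R : ℤ} : v ∈ Bq z R ↔
    (z.1 - R ≤ v.1 ∧ v.1 < z.1 + R) ∧ (z.2 - R ≤ v.2 ∧ v.2 < z.2 + R) := by
  simp only [Bq, Finset.mem_product, Finset.mem_Ico]

theorem lkBq_add {z v t : ℤ × ℤ} {R : ℤ} : v + t ∈ Bq (z + t) R ↔ v ∈ Bq z R := by
  rw [lkBq, lkBq]
  simp only [Prod.fst_add, Prod.snd_add]
  omega

/-- The tail of an edge is next to its head. -/
theorem tlv_near (h : hdv e ∈ Bq c r) : tlv e ∈ Bq c (r + 1) := by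
  rw [lkBq] at *
  rcases e with ⟨x, y⟩ | ⟨x, y⟩ <;> by_cases hp : Even (x + y) <;>
    simp only [hdv, tlv, hp, if_true, if_false] at * <;> omega

theorem lkBq_succ {v : ℤ × ℤ} (h : v ∈ Bq c r) : v ∈ Bq c (r + 1) := by
  rw [lkBq] at *
  omega

/-- Locality. -/
theorem TX_loc (w : Finset Ed → ℝ) (D : Finset (ℤ × ℤ)) (c : ℤ × ℤ) (r : ℤ) :
    Loc (Bq c r ∩ D) (TX w D c r) := by
  classical
  have key : ∀ ω ω' : Cfg, (∀ v, v ∈ Bq c r ∩ D → ω v = ω' v) → ∀ A,
      A ∈ (pcs ω D).filter (fun A => ∀ e ∈ A, hdv e ∈ Bq c r) →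
      A ∈ (pcs ω' D).filter (fun A => ∀ e ∈ A, hdv e ∈ Bq c r) := by
    intro ω ω' h A hA
    rw [mem_filter] at hA ⊢
    refine ⟨mem_pcs_agree hA.1 (fun _ _ => Iff.rfl) (fun _ _ => Iff.rfl) fun e he hd => ?_, hA.2⟩
    exact h _ (mem_inter.2 ⟨hA.2 e he, hd⟩)
  intro ω ω' h
  unfold TX
  congr 1
  ext A
  exact ⟨key ω ω' h A, key ω' ω (fun v hv => (h v hv).symm) A⟩

/-- The domains agree in the box, up to the translation `t`. -/
def Agr (D D' : Finset (ℤ × ℤ)) (c t : ℤ × ℤ) (r : ℤ) : Prop :=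
  ∀ v ∈ Bq c r, (v ∈ D ↔ v + t ∈ D')

theorem Agr.symm (h : Agr D D' c t r) : Agr D' D (c + t) (-t) r := by
  intro v hv
  have h1 := h (v + -t) (by rw [← lkBq_add (t := t)]; simpa using hv)
  rw [show v + -t + t = v by abel] at h1
  exact h1.symm

theorem Agr.mono (h : Agr D D' c t R) (hr : r ≤ R) : Agr D D' c t r := by
  intro v hv
  refine h v ?_
  rw [lkBq] at *
  omega

/-- Transport of the pieces. -/
theorem pcs_tr (ht : Even (t.1 + t.2)) (h : Agr D D' c t (r + 1))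
    (hω : ∀ v ∈ Bq c r, v ∈ D → ω' (v + t) = ω v) (hA : A ∈ pcs ω D)
    (hB : ∀ e ∈ A, hdv e ∈ Bq c r) :
    A.image (shE t) ∈ pcs ω' D' ∧ ∀ e ∈ A.image (shE t), hdv e ∈ Bq (c + t) r := by
  classical
  have h0 : Even (-t.1 + -t.2) := by
    rw [show -t.1 + -t.2 = -(t.1 + t.2) by ring, even_neg]; exact ht
  constructor
  · have h1 : A ∈ pcs (shC (-t) ω') (D'.image (· + -t)) := by
      refine mem_pcs_agree hA (fun e he => ?_) (fun e he => ?_) fun e he hd => ?_
      · rw [mem_tr', sub_neg_eq_add]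
        exact h _ (lkBq_succ (hB e he))
      · rw [mem_tr', sub_neg_eq_add]
        exact h _ (tlv_near (hB e he))
      · have h2 := shC_ev (a := -t) h0 ω' (hdv e + t)
        rw [show hdv e + t + -t = hdv e by abel] at h2
        rw [h2]
        exact (hω _ (hB e he) hd).symm
    have h3 : A.image (shE t) ∈ pcs (shC t (shC (-t) ω')) ((D'.image (· + -t)).image (· + t)) := by
      rw [pcs_sh]
      exact mem_image_of_mem _ h1
    have h4 := shC_neg' (-t) ω'
    have h5 := tr_neg D' (-t)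
    rw [neg_neg] at h4 h5
    rwa [h4, h5] at h3
  · intro e he
    rw [mem_image] at he
    obtain ⟨e', he', rfl⟩ := he
    rw [hdv_sh ht, lkBq_add]
    exact hB e' he'
where
  shC_neg' (a : ℤ × ℤ) (ω : Cfg) : shC (-a) (shC a ω) = ω := H135.shC_neg a ω

/-- **Transport.** -/
theorem TX_tr (ht : Even (t.1 + t.2)) (h : Agr D D' c t (r + 1))
    (hω : ∀ v ∈ Bq c r, v ∈ D → ω' (v + t) = ω v) {w w' : Finset Ed → ℝ}
    (hw : ∀ A ∈ pcs ω D, (∀ e ∈ A, hdv e ∈ Bq c r) → w' (A.image (shE t)) = w A) :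
    TX w' D' (c + t) r ω' = TX w D c r ω := by
  classical
  unfold TX
  symm
  have h0 : Even ((-t).1 + (-t).2) := by
    show Even (-t.1 + -t.2)
    rw [show -t.1 + -t.2 = -(t.1 + t.2) by ring, even_neg]; exact ht
  have hω' : ∀ v ∈ Bq (c + t) r, v ∈ D' → ω (v + -t) = ω' v := by
    intro v hv hD
    have h1 : v + -t ∈ Bq c r := by
      rw [← lkBq_add (t := t)]
      simpa using hv
    have h2 : v + -t ∈ D := by
      rw [h (v + -t) (lkBq_succ h1)]
      simpa using hD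
    have h3 := hω _ h1 h2
    rw [show v + -t + t = v by abel] at h3
    exact h3.symm
  refine prod_bij (fun A _ => A.image (shE t)) (fun A hA => ?_) (fun A _ A' _ hh => ?_)
    (fun A' hA' => ?_) (fun A hA => ?_)
  · rw [mem_filter] at hA ⊢
    exact pcs_tr ht h hω hA.1 hA.2
  · exact image_injective (shE_inj t) hh
  · rw [mem_filter] at hA'
    obtain ⟨h1, h2⟩ := pcs_tr h0 h.symm hω' hA'.1 hA'.2
    rw [show c + t + -t = c by abel] at h2
    refine ⟨A'.image (shE (-t)), mem_filter.2 ⟨h1, h2⟩, ?_⟩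
    have := shE_image_neg A' (-t)
    rwa [neg_neg] at this
  · rw [mem_filter] at hA
    exact (hw A hA.1 hA.2).symm

/-! ### Expectations -/

open Vale.Agent.P167.H167.Q (MxA)

variable {Q ε : ℝ} {η η' : Cfg}

/-- Translation invariance. -/
theorem Ex_lk (hQ : 0 < Q) (ht : Even (t.1 + t.2)) (hη' : Good η') (F : Cfg → ℝ) :
    Good (fun v => η' (v + t)) ∧ Ex Q (D'.image (· + -t)) (fun v => η' (v + t)) F =
      Ex Q D' η' (fun ω => F fun v => ω (v + t)) := by
  obtain ⟨h1, h2⟩ := FK.sym_of (τ := fun v : ℤ × ℤ => (v.1 + t.1, v.2 + t.2)) (FK.trV t)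
    (fun v => rfl) (FK.trE t) (fun ω => (FK.syP_tr t ht ω).sy)
  refine ⟨h1 η' hη', ?_⟩
  have h3 := h2 Q (D'.image (· + -t)) η' F hQ hη'
  have h4 : (D'.image (· + -t)).image (fun v : ℤ × ℤ => (v.1 + t.1, v.2 + t.2)) = D' := by
    have := tr_neg D' (-t)
    rwa [neg_neg] at this
  rw [h4] at h3
  exact h3

/-- **Comparison of the expectations.** -/
theorem TX_cmp (hQ : 1 ≤ Q) (hε : 0 ≤ ε) (h : MxA Q D η c r R ε) (hη : Good η) (hη' : Good η')
    (ht : Even (t.1 + t.2)) (hr : r + 1 ≤ R) (hD : Agr D D' c t R)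
    (hout : ∀ v ∈ Bq c R, v ∉ D → η' (v + t) = η v) {w w' : Finset Ed → ℝ}
    (h0 : ∀ ω, 0 ≤ TX w D c r ω)
    (hw : ∀ ω, ∀ A ∈ pcs ω D, (∀ e ∈ A, hdv e ∈ Bq c r) → w' (A.image (shE t)) = w A) :
    |Ex Q D η (TX w D c r) - Ex Q D' η' (TX w' D' (c + t) r)| ≤
      ε * Ex Q D' η' (TX w' D' (c + t) r) := by
  have hQ0 : 0 < Q := by linarith
  obtain ⟨g1, g2⟩ := Ex_lk (D' := D') hQ0 ht hη' (TX w D c r)
  have e1 : (fun ω : Cfg => TX w D c r fun v => ω (v + t)) = TX w' D' (c + t) r := by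
    funext ω
    exact (TX_tr ht (hD.mono hr) (fun _ _ _ => rfl) (hw _)).symm
  rw [e1] at g2
  rw [← g2]
  refine h.dom hQ hε ?_ hη g1 (fun v hv hvD => hout v hv hvD) h0 (TX_loc w D c r)
  ext v
  rw [mem_inter, mem_inter, mem_tr', sub_neg_eq_add]
  exact and_congr_right fun hv => (hD v hv).symm

end Vale.Agent.P167.H975
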