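import Vale.Agent.P167.H718.Lam.Asm8
import Vale.Agent.P167.H135.Br.Fin
import Vale.Agent.P167.H167.Q.ExSp
import Vale.Agent.P167.H852.Q.Cls

/-!
# P167, general `q`, block Q-LAM: `LamT`, Dobrushin boundary conditions
-/

namespace Vale.Agent.P167.H975.LamD

open Finset Filter Topology Vale.Agent.P167.BR Vale.Agent.P167.FK
open Vale.Agent.P167.E6 (IsPolygon Encloses dir)
open Vale.Agent.P167.H192.Q (SRSW)
open Vale.Agent.P167.H871 (Bd)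
open Vale.Agent.P167.H718 (Dob lam)
open Vale.Agent.P167.H825 (pdir)
open Vale.Agent.P167.H825.Q (Bc)
open Vale.Agent.P167.H542.Q (BD)
open Vale.Agent.P167.H601.LG (Spe wJ)
open Vale.Agent.P167.H975 (TX ev_lt)
open Vale.Agent.P167.H718.Lam
open Vale.Agent.P167.H852.Q (TPs LamT Cls DbC)
open Vale.Agent.P167.H760.Q (BaseQ q_pos pb)
open Vale.Agent.P167.H167.Q (ex_sp)

variable {θ : ℝ}

/-- Identification of polygons with the same sites. -/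
theorem poly_eq {P : ∀ N : ℕ, (ZMod N → ℤ × ℤ) → Prop} {N M : ℕ} (h : N = M) (hM : M ≠ 0)
    {q : ZMod N → ℤ × ℤ} {q' : ZMod M → ℤ × ℤ}
    (hq : ∀ j : ℕ, q (j : ZMod N) = q' (j : ZMod M)) (hP : P M q') : P N q := by
  subst h
  have : NeZero N := ⟨hM⟩
  have e : q = q' := by
    funext x
    obtain ⟨j, rfl⟩ := ZMod.natCast_zmod_surjective x
    exact hq j
  rw [e]
  exact hP

theorem PN_pe {l : ℕ} {p : ZMod l → ℤ × ℤ} (hp : IsPolygon p) (n m : ℕ) :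
    Enl.PN p n m = CL.pe p n m := by
  unfold Enl.PN CL.pe
  rw [Enl.pdir_step hp, add_sub_cancel_left]

theorem pdir_zero (S : CA.Dat) : pdir S.p 0 = S.r := by
  have h := Enl.pdir_step S.poly 0
  rw [Nat.cast_zero, zero_add, S.step] at h
  exact dir_inj' (add_left_cancel h).symm

theorem tN_lt (S : CA.Dat) {n : ℕ} (hn : 0 < n) : ⌊S.tp * (n : ℝ)⌋₊ < n := by
  have h0 := S.tp0
  have h1 := S.tp1
  rw [Nat.floor_lt (by positivity)]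
  have hn' : (0 : ℝ) < n := by exact_mod_cast hn
  nlinarith

/-- The unit polygon of the data. -/
noncomputable def uD (S : CA.Dat) (ia : ℕ) : Uni := ⟨S.l, S.p, S.Q, .dob ia S.tp, S.tp⟩

theorem uD_ok {S : CA.Dat} {ia : ℕ} (hr : S.r = 0) (i0 : 0 < ia) (i1 : ia < S.l)
    (hd : S.p (ia + 1) = S.p ia + (1, 0)) : (uD S ia).Ok := by
  refine ⟨S.poly, S.enc, ?_⟩
  refine ⟨S.tp0, S.tp1, i0, i1, S.tp0, S.tp1, ?_, ?_⟩
  · exact (pdir_zero S).trans hr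
  · have h := Enl.pdir_step S.poly ia
    rw [hd] at h
    exact dir_inj' (add_left_cancel h).symm

theorem ev_L {L : Filter ℕ} (hL : L ≤ atTop) {P : ℕ → Prop} (h : ∀ᶠ n in atTop, P n) :
    ∀ᶠ n in L, P n := hL h

/-- **[LAMX], Dobrushin boundary conditions.** -/
theorem lamT_db (h0 : 0 < θ) (h1 : θ ≤ Real.pi / 3) (hR : RSW (2 * Real.cos θ))
    (hSR : SRSW (2 * Real.cos θ)) {S : CA.Dat} (X : BD S θ ((θ - Real.pi) / 2))
    (hb : BaseQ X fun _ => 0) (hc : Cls X) {ia : ℕ} (hd : DbC X ia)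
    (hL : LamP θ (uD S ia)) : LamT X := by
  classical
  have hU : (uD S ia).Ok := uD_ok hc.r hd.i0 hd.i1 hd.dir
  have hdob : (uD S ia).IsDob := trivial
  have hcos : 0 < Real.cos θ := Real.cos_pos_of_mem_Ioo ⟨by linarith [Real.pi_pos], by
    linarith [Real.pi_pos]⟩
  obtain ⟨σ, R, hσ, hBr⟩ := H135.Br.brU θ hU
  obtain ⟨ρ₀, hρ₀, hL⟩ := hL
  obtain ⟨ρ₁, hρ₁, hE⟩ := ex_sp h0 h1 hR hSR σ R hσ
  obtain ⟨ρ₂, hρ₂, a1, a2, a3, a4⟩ : ∃ ρ₂ : ℝ, 0 < ρ₂ ∧ ρ₂ ≤ ρ₀ ∧ ρ₂ ≤ ρ₁ ∧ ρ₂ ≤ 1 / 100 ∧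
      ρ₂ ≤ σ / 100 := by
    refine ⟨min (min ρ₀ ρ₁) (min (1 / 100) (σ / 100)), ?_, ?_, ?_, ?_, ?_⟩
    · positivity
    · exact (min_le_left _ _).trans (min_le_left _ _)
    · exact (min_le_left _ _).trans (min_le_right _ _)
    · exact (min_le_right _ _).trans (min_le_left _ _)
    · exact (min_le_right _ _).trans (min_le_right _ _)
  refine ⟨ρ₂, hρ₂, fun ρ hρ hρ2 => ?_⟩
  obtain ⟨C₁, hC₁, hL⟩ := hL ρ hρ (hρ2.trans a1)
  obtain ⟨c₂, C₂, n₀, -, hC₂, hE⟩ := hE ρ hρ (hρ2.trans a2)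
  refine ⟨C₂ * C₁, by positivity, ?_⟩
  filter_upwards [X.le hL, X.le hBr, X.le (eventually_ge_atTop n₀), X.le (ev_lt 100 hσ),
    X.le (eventually_ge_atTop 100), X.poly, X.enc, hb.2, hd.k] with n g1 g2 g3 g4 g5 g6 g7 g8 g9
  have hn : 0 < n := by omega
  have hnr : (0 : ℝ) < n := by exact_mod_cast hn
  have htn : ⌊S.tp * (n : ℝ)⌋₊ < n := tN_lt S hn
  -- the polygon
  have hl : NeZero S.l := ⟨by have := S.poly.1; omega⟩
  rw [add_zero] at g8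
  obtain ⟨hN, hpos⟩ := q_pos S hn g6 g7 htn g8
  rw [g9]
  rw [mul_comm] at hN
  have hk : (uD S ia).k n = ia * n := by
    show Enl.kOf S.l n ⌊S.tp * (n : ℝ)⌋₊ ia ⌊S.tp * (n : ℝ)⌋₊ = _
    unfold Enl.kOf
    rw [if_pos (by omega)]
    omega
  refine poly_eq (P := fun N q => ∀ (a : Fin 4) (τ : ℕ → ℤ),
    Bd (S.D n : Set (ℤ × ℤ)) N (fun i => q (i : ZMod N)) τ 1 → ∀ η : Cfg,
    Dob η ((S.D n).image (· + E6.dir a)) (fun i => q i + E6.dir a) (ia * n) →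
    Ex (2 * Real.cos θ) ((S.D n).image (· + E6.dir a)) η (fun ω =>
        |TPs θ ((θ - Real.pi) / 2) (fun i => q i + E6.dir a) ((S.D n).image (· + E6.dir a)) (ia * n) τ
          ⌊ρ * n⌋ ω|) ≤ C₂ * C₁ * lam θ ((θ - Real.pi) / 2) q (S.D n) (ia * n) (E6.dir a))
    (q' := (uD S ia).q n) hN (by have := S.poly.1; positivity) (fun j => ?_) ?_
  · rw [hpos j]
    show _ = Enl.qN S.p n ⌊S.tp * (n : ℝ)⌋₊ _
    rw [Enl.qN_nat hn, PN_pe S.poly, add_comm]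
  intro a τ hτ η hη
  rw [← hk] at hη ⊢
  have hSt : (uD S ia).St n (dir a) τ η := ⟨Or.inr ⟨a, rfl⟩, hτ, hη⟩
  obtain ⟨η', k1, k2, k3, -, -⟩ := g2 (dir a) τ η hSt
  have hkle : (uD S ia).k n ≤ (uD S ia).l * n := k2.kle
  have b1 : (⌊ρ * (n : ℝ)⌋ : ℝ) ≤ ρ * n := Int.floor_le _
  have b2 : σ * n < ⌊σ * (n : ℝ)⌋₊ + 1 := Nat.lt_floor_add_one _
  have b3 : ρ * n ≤ 1 / 100 * n := mul_le_mul_of_nonneg_right (hρ2.trans a3) hnr.le
  have b4 : ρ * n ≤ σ / 100 * n := mul_le_mul_of_nonneg_right (hρ2.trans a4) hnr.le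
  have b5 : (100 : ℝ) ≤ n := by exact_mod_cast g5
  have hr1 : 3 * (⌊ρ * (n : ℝ)⌋ + 1) < (n : ℤ) := by
    have : ((3 * (⌊ρ * (n : ℝ)⌋ + 1) : ℤ) : ℝ) < ((n : ℤ) : ℝ) := by
      push_cast
      linarith
    exact_mod_cast this
  have hr2 : 4 * (⌊ρ * (n : ℝ)⌋ + 1) < ((⌊σ * (n : ℝ)⌋₊ : ℕ) : ℤ) := by
    have : ((4 * (⌊ρ * (n : ℝ)⌋ + 1) : ℤ) : ℝ) < (((⌊σ * (n : ℝ)⌋₊ : ℕ) : ℤ) : ℝ) := by
      push_cast
      linarith
    exact_mod_cast this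
  have hT : ∀ j ∈ ((uD S ia).pg n (dir a) τ η').sp, ∀ ω,
      0 ≤ ((uD S ia).pg n (dir a) τ η').T θ j ⌊ρ * n⌋ ω := fun j hj ω =>
    (T_pos h0 h1 k2 k3 hr1 hr2 hj ω).1
  have k4 := (hE n g3 _ k2 hT).2
  have k5 := g1 a τ η' k1
  have k6 : Ex (2 * Real.cos θ) ((S.D n).image (· + E6.dir a)) η (fun ω =>
        |TPs θ ((θ - Real.pi) / 2) (fun i => (uD S ia).q n i + E6.dir a)
          ((S.D n).image (· + E6.dir a)) ((uD S ia).k n) τ ⌊ρ * n⌋ ω|) =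
        ((uD S ia).pg n (dir a) τ η').E θ (fun ω => ∏ j ∈ ((uD S ia).pg n (dir a) τ η').sp,
          ((uD S ia).pg n (dir a) τ η').T θ j ⌊ρ * n⌋ ω) := by
      have hq := Uni.poly_qa hU hn (dir a)
      have hD := Uni.enc_qa hU hn (dir a)
      refine (Ex_eta (η' := η') hq hD hkle hη k1.dob (by linarith) fun ω ω' h => ?_).trans ?_
      · show |∏ j ∈ ((uD S ia).pg n (dir a) τ η').sp, ((uD S ia).pg n (dir a) τ η').T θ j ⌊ρ * n⌋ ω| =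
          |∏ j ∈ ((uD S ia).pg n (dir a) τ η').sp, ((uD S ia).pg n (dir a) τ η').T θ j ⌊ρ * n⌋ ω'|
        congr 1
        exact prod_congr rfl fun j _ => TX_on _ _ _ ω ω' h
      · show Ex _ _ η' (fun ω => |∏ j ∈ ((uD S ia).pg n (dir a) τ η').sp,
          ((uD S ia).pg n (dir a) τ η').T θ j ⌊ρ * n⌋ ω|) = Ex _ _ η' _
        congr 1
        funext ω
        exact abs_of_nonneg (prod_nonneg fun j hj => hT j hj ω)
  refine (le_of_eq k6).trans (k4.trans ?_)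
  rw [mul_assoc]
  exact mul_le_mul_of_nonneg_left k5 hC₂.le

end Vale.Agent.P167.H975.LamD
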