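import Vale.Agent.P167.H685.LD.Ea

/-!
# P167, general `q`, block Q-LAM (LF): the innermost strand around a flat boundary site

If a path of the colour `!e` goes around the boundary site `q k` (of the colour `e`) in the box of radius
`r`, then a strand goes around `q k` in the box of radius `r`, with the colour `e` on the side of
`q k` (`exists_inner`).
-/

namespace Vale.Agent.P167.H975

open Finset Relation Vale.Agent.P145.FB
open Vale.Agent.P167 Vale.Agent.P167.BR Vale.Agent.P167.FK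
open Vale.Agent.P167.E6 (IsPolygon Encloses face)
open Vale.Agent.P167.H632 (cs pr)
open Vale.Agent.P167.H718 (IsXY)
open Vale.Agent.P167.QX (lo hi exists_xy lo_xy hi_xy)
open Vale.Agent.P167.H685.LD

variable {n k : ℕ} {q : ZMod n → ℤ × ℤ} {D : Finset (ℤ × ℤ)} {R ρ r : ℤ} {ω : Cfg} {A : Finset Ed}
  {e f : Bool} {m1 m2 x y : ℕ} {s t a : ℤ × ℤ}

/-- The strand goes around `q k` with the colour `e` on the side of `q k`. -/
def Ard (q : ZMod n → ℤ × ℤ) (k : ℕ) (e : Bool) (A : Finset Ed) : Prop :=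
  ∃ x y, IsXY q A x y ∧ if e = true then (y < k ∧ k ≤ x) else (x < k ∧ k ≤ y)

/-- **The innermost strand.** -/
theorem exists_inner (hq : IsPolygon q) (hD : Encloses q D) (hW : JW q D k R) (hr1 : 1 ≤ r)
    (hrR : r + 1 ≤ R) (hpar : ((q (k : ZMod n)).1 + (q (k : ZMod n)).2) % 2 = pr e)
    (h : ω ∉ Ea e D (q (k : ZMod n)) r) :
    ∃ A ∈ pcs ω D, ¬ IsLp D A ∧ (∀ g ∈ A, hdv g ∈ Bq (q (k : ZMod n)) r) ∧ Ard q k e A := by
  classical
  by_contra hcon
  push Not at hcon
  apply h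
  intro s t hs1 hs2 ht1 ht2 hsp hst
  have hlt := hW.lt
  have hgt := hW.gt
  have hprf : pr e + pr (!e) = 1 := by cases e <;> decide
  have hp0 : pr e = 0 ∨ pr e = 1 := by cases e <;> decide
  have hne : s ≠ t := by
    rintro rfl
    omega
  obtain ⟨v1, hv1, c1⟩ := end_cor hst hne
  obtain ⟨v2, hv2, c2⟩ := end_cor hst.symm hne.symm
  have b1 := mem_Bq.1 (Finset.mem_inter.1 (Finset.mem_coe.1 hv1.2)).2
  have b2 := mem_Bq.1 (Finset.mem_inter.1 (Finset.mem_coe.1 hv2.2)).2
  obtain ⟨c11, c12⟩ := c1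
  obtain ⟨c21, c22⟩ := c2
  obtain ⟨m1, e1, e2, e3⟩ := hW.site hs1 (by rw [abs_le]; omega)
  obtain ⟨m2, f1, f2, f3⟩ := hW.site ht1 (by rw [abs_le]; omega)
  rw [← e2, ← f2] at hst
  rw [← e2] at hsp
  -- potentials
  have hex : ∀ A : Finset Ed, ∃ u : ℤ × ℤ → ℤ, A ∈ pcs ω D → PotD D A u := by
    intro A
    by_cases hA : A ∈ pcs ω D
    · obtain ⟨u, hu⟩ := BR.exists_pot hq hD hA
      exact ⟨u, fun _ => hu⟩
    · exact ⟨fun _ => 0, fun h => absurd h hA⟩
  choose U hU using hex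
  have hU' : ∀ A ∈ pcs ω D, PotD D A (U A) := fun A hA => hU A hA
  obtain ⟨A, hA, hAne⟩ : ∃ A ∈ pcs ω D, if e = true then U A (q (m1 : ZMod n)) < U A (q (k : ZMod n))
      else U A (q (k : ZMod n)) < U A (q (m1 : ZMod n)) := by
    have s1 := sum_bd hq hD hU' m1
    have s2 := sum_bd hq hD hU' k
    simp only [Int.even_iff] at s1 s2
    cases e
    · have hpf : pr false = 1 := rfl
      have hpt : pr (!false) = 0 := rfl
      have h3 : ∑ A ∈ pcs ω D, U A (q (k : ZMod n)) < ∑ A ∈ pcs ω D, U A (q (m1 : ZMod n)) := by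
        split_ifs at s1 s2 <;> omega
      obtain ⟨A, hA, h4⟩ := exists_lt_of_sum_lt h3
      exact ⟨A, hA, by simpa using h4⟩
    · have hpf : pr true = 0 := rfl
      have hpt : pr (!true) = 1 := rfl
      have h3 : ∑ A ∈ pcs ω D, U A (q (m1 : ZMod n)) < ∑ A ∈ pcs ω D, U A (q (k : ZMod n)) := by
        split_ifs at s1 s2 <;> omega
      obtain ⟨A, hA, h4⟩ := exists_lt_of_sum_lt h3
      exact ⟨A, hA, by simpa using h4⟩
  have hu := hU' A hA
  have hl : ¬ IsLp D A := by
    intro hl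
    have h3 : ∀ z : ℕ, be q (z : ZMod n) ∉ A := by
      intro z hz
      rcases be_bd hq hD (z : ZMod n) with ⟨_, h4⟩ | ⟨_, h4⟩
      · exact h4 (hl.tl hA hz)
      · exact h4 (hl _ hz)
    have h5 := pot_arc hq hD hu (i := m1) (j := k) (by omega) fun m _ _ => h3 m
    rw [h5] at hAne
    split_ifs at hAne <;> omega
  obtain ⟨x, y, hxy⟩ := exists_xy hq hD hA hl
  have p := fun {m : ℕ} (hm : m ≤ n) => H718.pot_bd hq hD hA hxy hu hm
  have ea := p (m := m1) e3.le
  have eb := p (m := k) (by omega)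
  have ec := p (m := m2) f3.le
  have ed := pot_path hA hu (hst.mono (Set.inter_subset_inter_right _ (by
    intro v hv
    exact (Finset.mem_inter.1 (Finset.mem_coe.1 hv)).1)) subset_rfl) hsp
  have hxyne := hxy.ne
  have hloc : (e = false ∧ m1 ≤ x ∧ x < k ∧ k ≤ y ∧ y < m2) ∨
      (e = true ∧ m1 ≤ y ∧ y < k ∧ k ≤ x ∧ x < m2) := by
    cases e
    · left
      simp only [Bool.false_eq_true, if_false] at hAne
      refine ⟨rfl, ?_⟩
      split_ifs at ea eb ec <;> omega
    · right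
      simp only [if_true] at hAne
      refine ⟨rfl, ?_⟩
      split_ifs at ea eb ec <;> omega
  refine hcon A hA hl (fun g hg => ?_) ⟨x, y, hxy, ?_⟩
  · by_cases hgD : hdv g ∈ D
    · exact confine hq hD hW (by omega) (by omega) (by omega) (by omega) hst hsp
        hA hxy (by omega) (by omega) g hg hgD
    · obtain ⟨-, -, -, b4⟩ := be_odd hq hD hxy.2.2.2.2.2
      have h5 := exit_unique hA hg hxy.2.2.2.1 hgD b4
      rw [h5]
      obtain ⟨h6, h7⟩ := hW.side' hq (j := y) (by omega) (by omega)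
      rw [mem_Bq, h6]
      clear ea eb ec
      refine ⟨⟨?_, ?_⟩, ?_, ?_⟩ <;> omega
  · rcases hloc with ⟨rfl, h8⟩ | ⟨rfl, h8⟩
    · simp only [Bool.false_eq_true, if_false]
      omega
    · simp only [if_true]
      omega

end Vale.Agent.P167.H975
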