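import Vale.Agent.P167.H975.LkD
import Vale.Agent.P167.H601.LG.Loc

/-!
# P167, general `q`, block Q-LAM (LK): special points of the same type

Two special points (corner, base, junction) of two polygons with separated special points have the same
local picture if the directions before and after them are the same (`SameT`): the products over the
pieces in small boxes have comparable expectations (`lk_cmp`).
-/

namespace Vale.Agent.P167.H975

open Finset Vale.Agent.P167.BR
open Vale.Agent.P167.E6 (IsPolygon Encloses dir face)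
open Vale.Agent.P167.E2 (ro ro_spec ro_unique)
open Vale.Agent.P167.FK (Bq Good Ex)
open Vale.Agent.P167.H135 (shE)
open Vale.Agent.P167.H718 (ce_add)
open Vale.Agent.P167.H871 (Bd)
open Vale.Agent.P167.Enl
open Vale.Agent.P167.H601.LG (GeoN Spe SepL nm_face nm_tri' nm_comm nm_of_Bq nm_be)
open Vale.Agent.P167.H167.Q (MxA)

variable {D D' : Finset (ℤ × ℤ)} {t c : ℤ × ℤ} {r R : ℤ}
  {N N' n₀ n₀' k k' : ℕ} {q : ZMod N → ℤ × ℤ} {q' : ZMod N' → ℤ × ℤ} {τ τ' : ℕ → ℤ}

/-- Near sides are in the window. -/
theorem near_win (hG : GeoN n₀ N q τ) [NeZero N] {J d : ℕ} (hJ : J ≤ N) (hd : d ≤ J)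
    (h3 : 3 * (R + 1) < n₀) (hR : 2 * (R + 1) ≤ d) {i : ZMod N}
    (h : nm (q i - q (J : ZMod N)) ≤ R + 1) : ∃ m ≤ 2 * d, i = ((J - d + m : ℕ) : ZMod N) := by
  have hi : ((i.val : ℕ) : ZMod N) = i := ZMod.natCast_zmod_val i
  have hlt := ZMod.val_lt i
  rw [← hi] at h
  rcases hG.near hlt.le hJ h3 h with h1 | h1
  · rw [abs_le] at h1
    refine ⟨i.val + d - J, by omega, ?_⟩
    rw [show J - d + (i.val + d - J) = i.val by omega, hi]
  · rcases abs_cases ((i.val : ℤ) - J) with ⟨a, b⟩ | ⟨a, b⟩ <;> rw [a] at h1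
    · omega
    · refine ⟨i.val + N + d - J, by omega, ?_⟩
      rw [show J - d + (i.val + N + d - J) = i.val + N by omega, Nat.cast_add, ZMod.natCast_self,
        add_zero, hi]

theorem nm_of_face {i : ZMod N} {s : Fin 4} {x : ℤ × ℤ} (h : face (q i) s ∈ Bq x R) :
    nm (q i - x) ≤ R + 1 := by
  have h1 := nm_tri' (q i) (face (q i) s) x
  have h2 := nm_face (q i) s
  rw [nm_comm] at h2
  have h3 := nm_of_Bq h
  omega

theorem nm_of_be {i : ZMod N} {x : ℤ × ℤ} (h : hdv (be q i) ∈ Bq x R) : nm (q i - x) ≤ R + 1 := by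
  have h1 := nm_tri' (q i) (hdv (be q i)) x
  have h2 := nm_be (q := q) i
  rw [nm_comm] at h2
  have h3 := nm_of_Bq h
  omega

section

variable {J J' d : ℕ}

/-- The base sites of the windows. -/
theorem Win.cen (h : Win q q' J J' d t) (h1 : d ≤ J) (h1' : d ≤ J') :
    q' (J' : ZMod N') = q (J : ZMod N) + t := by
  have := h d (by omega)
  rwa [show J' - d + d = J' by omega, show J - d + d = J by omega] at this

/-- **The domains agree.** -/
theorem agr_win (hG : GeoN n₀ N q τ) (hG' : GeoN n₀' N' q' τ') (hq : IsPolygon q)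
    (hD : Encloses q D) (hq' : IsPolygon q') (hD' : Encloses q' D') (hJ : J ≤ N) (hd : d ≤ J)
    (hJ' : J' ≤ N') (hd' : d ≤ J') (hR1 : 1 ≤ R) (h3 : 3 * (R + 1) < n₀) (h3' : 3 * (R + 1) < n₀')
    (hR : 2 * (R + 1) ≤ d) (h : Win q q' J J' d t) : Agr D D' (q (J : ZMod N)) t R := by
  have hn : NeZero N := ⟨by have := hq.1; omega⟩
  have hn' : NeZero N' := ⟨by have := hq'.1; omega⟩
  have hc := h.cen hd hd'
  have step : ∀ m ≤ 2 * d, q' ((J' - d + m : ℕ) : ZMod N') = q ((J - d + m : ℕ) : ZMod N) + t ∧
      q' (((J' - d + m : ℕ) : ZMod N') + 1) = q (((J - d + m : ℕ) : ZMod N) + 1) + t := by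
    intro m hm
    refine ⟨h m (by omega), ?_⟩
    have h1 := h (m + 1) (by omega)
    rw [← add_assoc, ← add_assoc, Nat.cast_add _ 1, Nat.cast_add (J - d + m) 1, Nat.cast_one,
      Nat.cast_one] at h1
    exact h1
  have hro : ro q (J : ZMod N) = ro q' (J' : ZMod N') := by
    apply ro_unique hq'
    have h1 := (step d (by omega)).2
    rw [show J' - d + d = J' by omega, show J - d + d = J by omega] at h1
    rw [h1, hc, ro_spec hq]
    ring
  have hf : ∀ (v : ℤ × ℤ) (s : Fin 4), face v s + t = face (v + t) s := fun v s => by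
    unfold face; ring
  refine agr_of hD hD' (fun i s hs => ?_) (fun i s hs => ?_)
    (v₀ := face (q (J : ZMod N)) (ro q (J : ZMod N))) ?_ (E2.enc_out hq hD).1 ?_
  · obtain ⟨m, hm, rfl⟩ := near_win hG hJ hd h3 hR (nm_of_face hs)
    exact ⟨_, step m hm⟩
  · rw [← hc] at hs
    obtain ⟨m, hm, rfl⟩ := near_win hG' hJ' hd' h3' hR (nm_of_face hs)
    exact ⟨_, step m hm⟩
  · rw [lkBq]
    generalize ro q (J : ZMod N) = s
    fin_cases s <;> simp [face] <;> omega
  · rw [hf, ← hc, hro]
    exact (E2.enc_out hq' hD').1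

end

/-! ### Straight windows -/

theorem straight_R (hu : Bd (D : Set (ℤ × ℤ)) N (fun j => q (j : ZMod N)) τ 1) {J : ℕ} (m : ℕ)
    (h : ∀ j, J ≤ j → j < J + m → τ j = τ J) :
    q ((J + m : ℕ) : ZMod N) = q (J : ZMod N) + (m : ℤ) • Top.vec (τ J) := by
  induction m with
  | zero => simp
  | succ m ih =>
    have h1 := hu.step (J + m)
    change q ((J + m + 1 : ℕ) : ZMod N) = q ((J + m : ℕ) : ZMod N) + _ at h1
    rw [← add_assoc, h1, ih fun j a b => h j a (by omega), h (J + m) (by omega) (by omega)]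
    push_cast
    rw [add_smul, one_smul, add_assoc]

theorem straight_L (hu : Bd (D : Set (ℤ × ℤ)) N (fun j => q (j : ZMod N)) τ 1) {J : ℕ} (m : ℕ)
    (hm : m ≤ J) (h : ∀ j, J ≤ j + m → j < J → τ j = τ (J - 1)) :
    q ((J - m : ℕ) : ZMod N) = q (J : ZMod N) - (m : ℤ) • Top.vec (τ (J - 1)) := by
  induction m with
  | zero => simp
  | succ m ih =>
    have h1 := hu.step (J - (m + 1))
    change q ((J - (m + 1) + 1 : ℕ) : ZMod N) = q ((J - (m + 1) : ℕ) : ZMod N) + _ at h1
    have h2 := ih (by omega) fun j a b => h j (by omega) b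
    rw [show J - (m + 1) + 1 = J - m by omega, h2, h (J - (m + 1)) (by omega) (by omega)] at h1
    rw [eq_sub_iff_add_eq, ← sub_eq_iff_eq_add] at *
    push_cast
    rw [add_smul, one_smul, ← h1]
    abel

/-- Windows of straight legs agree. -/
theorem win_of (hu : Bd (D : Set (ℤ × ℤ)) N (fun j => q (j : ZMod N)) τ 1)
    (hu' : Bd (D' : Set (ℤ × ℤ)) N' (fun j => q' (j : ZMod N')) τ' 1) {J J' d : ℕ} (hd : d ≤ J)
    (hd' : d ≤ J') (hR : ∀ j, J ≤ j → j < J + (d + 1) → τ j = τ J)
    (hR' : ∀ j, J' ≤ j → j < J' + (d + 1) → τ' j = τ' J')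
    (hL : ∀ j, J ≤ j + d → j < J → τ j = τ (J - 1))
    (hL' : ∀ j, J' ≤ j + d → j < J' → τ' j = τ' (J' - 1))
    (hout : Top.vec (τ J) = Top.vec (τ' J')) (hinn : Top.vec (τ (J - 1)) = Top.vec (τ' (J' - 1))) :
    Win q q' J J' d (q' (J' : ZMod N') - q (J : ZMod N)) := by
  intro m hm
  rcases le_total m d with h | h
  · obtain ⟨x, rfl⟩ := Nat.exists_eq_add_of_le h
    rw [show J' - (m + x) + m = J' - x by omega, show J - (m + x) + m = J - x by omega,
      straight_L hu x (by omega) fun j a b => hL j (by omega) b,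
      straight_L hu' x (by omega) fun j a b => hL' j (by omega) b, hinn]
    abel
  · obtain ⟨x, rfl⟩ := Nat.exists_eq_add_of_le h
    rw [show J' - d + (d + x) = J' + x by omega, show J - d + (d + x) = J + x by omega,
      straight_R hu x fun j a b => hR j a (by omega),
      straight_R hu' x fun j a b => hR' j a (by omega), hout]
    abel

/-- No change next to a special point. -/
theorem sep_flat {L : ℕ} (hS : SepL L N τ k) (hLN : L ≤ N) (hper : ∀ j, τ (j + N) = τ j + 4) {J : ℕ} (h0 : 0 < J)
    (hJ : (J < N ∧ Spe τ k J) ∨ J = N) :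
    (∀ j, J ≤ j → j < J + L → τ j = τ J) ∧ (∀ j, J < j + L → j < J → τ j = τ (J - 1)) := by
  have key : ∀ j, 0 < j → j < N → (J < j → j < J + L → ¬ Spe τ k j) ∧
      (J = N → j < L → ¬ Spe τ k j) ∧ (j < J → J < j + L → ¬ Spe τ k j) := by
    intro j hj hjN
    refine ⟨fun a b hs => ?_, fun a b hs => ?_, fun a b hs => ?_⟩
    · rcases hJ with ⟨h1, h2⟩ | h1
      · have := (hS J j a hjN h2 hs).1
        omega
      · omega
    · have := (hS 0 j hj hjN (Or.inl rfl) hs).1
      omega
    · rcases hJ with ⟨h1, h2⟩ | h1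
      · have := (hS j J a h1 hs h2).1
        omega
      · have := (hS 0 j hj hjN (Or.inl rfl) hs).2
        omega
  have hstep : ∀ j, 0 < j → ¬ Spe τ k j → τ j = τ (j - 1) := by
    intro j hj hs
    by_contra hne
    exact hs (Or.inr (Or.inr ⟨hj, hne⟩))
  have hJN : J < N → J + L ≤ N ∧ L ≤ J := by
    intro hlt
    rcases hJ with ⟨h1, h2⟩ | h1
    · have := hS 0 J h0 h1 (Or.inl rfl) h2
      omega
    · omega
  constructor
  · intro j h1
    obtain ⟨m, rfl⟩ := Nat.exists_eq_add_of_le h1
    intro h2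
    induction m with
    | zero => rfl
    | succ m ih =>
      rw [← ih (by omega) (by omega)]
      rcases hJ with hJ | hJ
      · have e := hJN hJ.1
        exact hstep (J + (m + 1)) (by omega) ((key _ (by omega) (by omega)).1 (by omega) (by omega))
      · subst hJ
        have hm : m + 1 < J := by omega
        have e := hstep (m + 1) (by omega) ((key (m + 1) (by omega) hm).2.1 rfl (by omega))
        rw [add_comm J (m + 1), add_comm J m, hper, hper, e, Nat.add_sub_cancel]
  · intro j h1 h2
    have h3 : ∃ m, j + m + 1 = J := ⟨J - 1 - j, by omega⟩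
    obtain ⟨m, hm⟩ := h3
    induction m generalizing j with
    | zero => rw [show J - 1 = j by omega]
    | succ m ih =>
      rw [← ih (j + 1) (by omega) (by omega) (by omega)]
      have := hstep (j + 1) (by omega) (by
        refine (key (j + 1) (by omega) ?_).2.2 (by omega) (by omega)
        rcases hJ with hJ | hJ <;> omega)
      rw [Nat.add_sub_cancel] at this
      exact this.symm

theorem sepL_mono {L L' : ℕ} (h : SepL L N τ k) (hL : L' ≤ L) : SepL L' N τ k := by
  intro i j h1 h2 h3 h4
  have := h i j h1 h2 h3 h4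
  omega

theorem vec4 (x : ℤ) : Top.vec (x + 4) = Top.vec x := by
  unfold Top.vec Top.dx Top.dy
  rw [Int.add_emod_right]

/-- **Special points of the same type**: base, corner or junction, the same position relative to the
junction, the same directions before and after. -/
structure SameT (N k : ℕ) (τ : ℕ → ℤ) (j N' k' : ℕ) (τ' : ℕ → ℤ) (j' : ℕ) : Prop where
  base : j = 0 ↔ j' = 0
  lt : j < k ↔ j' < k'
  jun : 0 < j → (j = k ↔ j' = k')
  all : j = 0 → (k < N ↔ k' < N')
  out : Top.vec (τ j) = Top.vec (τ' j')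
  inn : Top.vec (τ (j + N - 1)) = Top.vec (τ' (j' + N' - 1))

/-- **The local pictures agree.** -/
theorem sameT_loc (hG : GeoN n₀ N q τ) (hG' : GeoN n₀' N' q' τ') (hq : IsPolygon q)
    (hD : Encloses q D) (hq' : IsPolygon q') (hD' : Encloses q' D')
    (hu : Bd (D : Set (ℤ × ℤ)) N (fun j => q (j : ZMod N)) τ 1)
    (hu' : Bd (D' : Set (ℤ × ℤ)) N' (fun j => q' (j : ZMod N')) τ' 1) {L L' : ℕ}
    (hS : SepL L N τ k) (hS' : SepL L' N' τ' k') (hR1 : 1 ≤ R) (h3 : 3 * (R + 1) < n₀)
    (h3' : 3 * (R + 1) < n₀') (hL : 2 * (R + 1) < L) (hL' : 2 * (R + 1) < L') {j j' : ℕ}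
    (hj : j < N) (hj' : j' < N') (hs : Spe τ k j) (hs' : Spe τ' k' j')
    (h : SameT N k τ j N' k' τ' j') :
    Agr D D' (q (j : ZMod N)) (q' (j' : ZMod N') - q (j : ZMod N)) R ∧
      ∃ σ, IM q k τ q' k' τ' (q (j : ZMod N)) (q' (j' : ZMod N') - q (j : ZMod N)) R σ := by
  have hn : NeZero N := ⟨by have := hq.1; omega⟩
  have hn' : NeZero N' := ⟨by have := hq'.1; omega⟩
  have hle := hG.le
  have hle' := hG'.le
  obtain ⟨d, hd⟩ : ∃ d : ℕ, (d : ℤ) = 2 * (R + 1) := ⟨(2 * (R + 1)).toNat, by omega⟩
  have hS := sepL_mono hS (show d + 1 ≤ L by omega)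
  have hS' := sepL_mono hS' (show d + 1 ≤ L' by omega)
  rcases Nat.eq_zero_or_pos j with rfl | h0
  · -- the base
    obtain rfl : j' = 0 := h.base.1 rfl
    obtain ⟨f1, f2⟩ := sep_flat hS (by omega) hG.per (J := N) (by omega) (Or.inr rfl)
    obtain ⟨f1', f2'⟩ := sep_flat hS' (by omega) hG'.per (J := N') (by omega) (Or.inr rfl)
    have e0 : q ((N : ℕ) : ZMod N) = q ((0 : ℕ) : ZMod N) := by rw [ZMod.natCast_self, Nat.cast_zero]
    have e0' : q' ((N' : ℕ) : ZMod N') = q' ((0 : ℕ) : ZMod N') := by
      rw [ZMod.natCast_self, Nat.cast_zero]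
    have hw : Win q q' N N' d (q' ((N' : ℕ) : ZMod N') - q ((N : ℕ) : ZMod N)) := by
      refine win_of hu hu' (by omega) (by omega) f1 f1' (fun j a b => f2 j (by omega) b)
        (fun j a b => f2' j (by omega) b) ?_ ?_
      · have a := hG.per 0
        have b := hG'.per 0
        rw [zero_add] at a b
        rw [a, b, vec4, vec4]
        exact h.out
      · have := h.inn
        rwa [zero_add, zero_add] at this
    have hA := agr_win hG hG' hq hD hq' hD' le_rfl (by omega) le_rfl (by omega) hR1 h3 h3'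
      (by omega) hw
    rw [e0, e0'] at hw hA
    refine ⟨hA, _, IM_base hw hq hq' hu hu' (by omega) (by omega) (fun j hj hb => ?_)
      (fun j hj => ?_) (fun j hj hjd => ?_)⟩
    · have h1 := nm_of_be hb
      rcases hG.near hj.le (Nat.zero_le N) h3 h1 with h2 | h2
      · rw [abs_le] at h2
        push_cast at h2
        omega
      · rw [abs_of_nonneg (by omega)] at h2
        push_cast at h2
        omega
    · have a := h.lt
      constructor
      · intro hk
        have b := a.2 (by omega)
        by_cases hkN : k < N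
        · have := (hS 0 k b hkN (Or.inl rfl) (Or.inr (Or.inl rfl))).1
          omega
        · omega
      · intro hk
        have b := a.1 (by omega)
        by_cases hkN : k' < N'
        · have := (hS' 0 k' b hkN (Or.inl rfl) (Or.inr (Or.inl rfl))).1
          omega
        · omega
    · have a := h.all rfl
      by_cases hkN : k < N
      · have b := a.1 hkN
        have c1 : ¬ j < k := by
          rcases Nat.eq_zero_or_pos k with rfl | hk0
          · omega
          · have := (hS 0 k hk0 hkN (Or.inl rfl) (Or.inr (Or.inl rfl))).2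
            omega
        have c2 : ¬ j + N' - N < k' := by
          rcases Nat.eq_zero_or_pos k' with rfl | hk0
          · omega
          · have := (hS' 0 k' hk0 b (Or.inl rfl) (Or.inr (Or.inl rfl))).2
            omega
        tauto
      · have b : ¬ k' < N' := fun h' => hkN (a.2 h')
        omega
  · -- corners and junctions
    have h0' : 0 < j' := by
      rcases Nat.eq_zero_or_pos j' with h' | h'
      · have := h.base.2 h'
        omega
      · exact h'
    obtain ⟨f1, f2⟩ := sep_flat hS (by omega) hG.per h0 (Or.inl ⟨hj, hs⟩)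
    obtain ⟨f1', f2'⟩ := sep_flat hS' (by omega) hG'.per h0' (Or.inl ⟨hj', hs'⟩)
    have s1 := hS 0 j h0 hj (Or.inl rfl) hs
    have s2 := hS' 0 j' h0' hj' (Or.inl rfl) hs'
    have hw : Win q q' j j' d (q' (j' : ZMod N') - q (j : ZMod N)) := by
      refine win_of hu hu' (by omega) (by omega) f1 f1' (fun j a b => f2 j (by omega) b)
        (fun j a b => f2' j (by omega) b) h.out ?_
      have := h.inn
      rwa [show j + N - 1 = j - 1 + N by omega, show j' + N' - 1 = j' - 1 + N' by omega, hG.per,
        hG'.per, vec4, vec4] at this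
    have hA := agr_win hG hG' hq hD hq' hD' hj.le (by omega) hj'.le (by omega) hR1 h3 h3'
      (by omega) hw
    refine ⟨hA, _, IM_mid hw hq hq' hu hu' (by omega) (by omega) (by omega) (fun i hi hb => ?_)
      (fun i a b => ?_)⟩
    · have h1 := nm_of_be hb
      rcases hG.near hi.le hj.le h3 h1 with h2 | h2
      · rw [abs_le] at h2
        omega
      · rcases abs_cases ((i : ℤ) - j) with ⟨x, y⟩ | ⟨x, y⟩ <;> rw [x] at h2 <;> omega
    · have c1 := h.jun h0
      have c2 := h.lt
      by_cases hjk : j = k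
      · have := c1.1 hjk
        omega
      · have hjk' : j' ≠ k' := fun h' => hjk (c1.2 h')
        have g1 : (i < k ↔ j < k) := by
          by_cases hkN : k < N
          · rcases Nat.lt_or_gt_of_ne hjk with h5 | h5
            · have := (hS j k h5 hkN hs (Or.inr (Or.inl rfl))).1
              omega
            · have := (hS k j h5 hj (Or.inr (Or.inl rfl)) hs).1
              omega
          · omega
        have g2 : (i + j' - j < k' ↔ j' < k') := by
          by_cases hkN : k' < N'
          · rcases Nat.lt_or_gt_of_ne hjk' with h5 | h5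
            · have := (hS' j' k' h5 hkN hs' (Or.inr (Or.inl rfl))).1
              omega
            · have := (hS' k' j' h5 hj' (Or.inr (Or.inl rfl)) hs').1
              omega
          · omega
        rw [g1, g2]
        exact c2.symm

end Vale.Agent.P167.H975
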