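import Vale.Agent.P167.H975.LfA
import Vale.Agent.P167.H975.LkE

/-!
# P167, general `q`, block Q-LAM (LF): the local factor at a flat base of the good parity

Free polygon with a dual base, wired polygon with a primal base: the product of the weights over the
pieces in the box of radius `r` around the base is the indicator of the event `Ea` (`TX_base`).
-/

namespace Vale.Agent.P167.H975

open Finset Relation Vale.Agent.P145.FB
open Vale.Agent.P167 Vale.Agent.P167.BR Vale.Agent.P167.FK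
open Vale.Agent.P167.E6 (IsPolygon Encloses face dir)
open Vale.Agent.P167.E2 (ro ro_spec ro_unique)
open Vale.Agent.P167.H632 (cs pr)
open Vale.Agent.P167.H718 (IsXY IsCl Cl rc isCl_strand)
open Vale.Agent.P167.QX (lo hi exists_xy lo_xy hi_xy wB)
open Vale.Agent.P167.H685.LD
open Vale.Agent.P167.H871 (Bd)
open Vale.Agent.P167.H601.LG (GeoN Spe SepL eq_of_noSpe turn_base nm_of_Bq)

variable {N k s : ℕ} {q : ZMod N → ℤ × ℤ} {D : Finset (ℤ × ℤ)} {R ρ r : ℤ} {ω : Cfg} {A : Finset Ed}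
  {e f : Bool} {x y : ℕ} {τ : ℕ → ℤ} {θ β : ℝ}

/-! ### rotations of the numbering -/

/-- The polygon with another base. -/
def qr (q : ZMod N → ℤ × ℤ) (s : ℕ) : ZMod N → ℤ × ℤ := fun i => q (i + (s : ZMod N))

theorem qr_poly (hq : IsPolygon q) (s : ℕ) : IsPolygon (qr q s) :=
  ⟨hq.1, fun i j h => add_right_cancel (hq.2.1 h), fun i => by
    obtain ⟨r, hr⟩ := hq.2.2 (i + (s : ZMod N))
    refine ⟨r, ?_⟩
    show q (i + 1 + (s : ZMod N)) = q (i + (s : ZMod N)) + dir r
    rw [← hr]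
    congr 1
    ring⟩

theorem qr_encl (hD : Encloses q D) (s : ℕ) : Encloses (qr q s) D := by
  intro v r
  rw [← hD v r]
  constructor
  · rintro ⟨i, h1, h2⟩
    refine ⟨i + (s : ZMod N), h1, ?_⟩
    rw [← h2]
    show q (i + (s : ZMod N) + 1) = q (i + 1 + (s : ZMod N))
    congr 1
    ring
  · rintro ⟨i, h1, h2⟩
    refine ⟨i - (s : ZMod N), ?_, ?_⟩
    · show q (i - (s : ZMod N) + (s : ZMod N)) = v
      rw [sub_add_cancel]
      exact h1
    · show q (i - (s : ZMod N) + 1 + (s : ZMod N)) = _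
      rw [← h2]
      congr 1
      ring

theorem qr_be (hq : IsPolygon q) (s : ℕ) (i : ZMod N) : be (qr q s) i = be q (i + (s : ZMod N)) := by
  have h := be_loc (t := 0) hq (qr_poly hq s) (i := i + (s : ZMod N)) (i' := i) (by
    show q _ = _
    rw [add_zero]) (by
    show q (i + 1 + (s : ZMod N)) = _
    rw [add_zero]
    congr 1
    ring)
  rw [h]
  unfold H135.shE
  rcases be q (i + (s : ZMod N)) with v | v <;> simp

/-- The number of the side in the old numbering. -/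
def oldi (N s j : ℕ) : ℕ := if j < N - s then j + s else j + s - N

theorem oldi_lt (hs : s ≤ N) {j : ℕ} (hj : j < N) : oldi N s j < N := by
  unfold oldi
  split_ifs <;> omega

theorem oldi_cast (hs : s ≤ N) {j : ℕ} (hj : j < N) :
    ((oldi N s j : ℕ) : ZMod N) = (j : ZMod N) + (s : ZMod N) := by
  unfold oldi
  split_ifs with h
  · rw [Nat.cast_add]
  · have e : j + s = (j + s - N) + N := by omega
    have h2 : ((j + s : ℕ) : ZMod N) = ((j + s - N : ℕ) : ZMod N) := by
      conv_lhs => rw [e]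
      rw [Nat.cast_add, ZMod.natCast_self, add_zero]
    rw [← h2, Nat.cast_add]

theorem xy_old (hq : IsPolygon q) (hs : s ≤ N) (h : IsXY (qr q s) A x y) :
    IsXY q A (oldi N s x) (oldi N s y) := by
  obtain ⟨h1, h2, h3, h4, h5, h6⟩ := h
  refine ⟨oldi_lt hs h1, oldi_lt hs h2, ?_, ?_, ?_, ?_⟩
  · rw [oldi_cast hs h1, ← qr_be hq]
    exact h3
  · rw [oldi_cast hs h2, ← qr_be hq]
    exact h4
  · rw [oldi_cast hs h1]
    exact h5
  · rw [oldi_cast hs h2]
    exact h6

/-- A flat window around the base: horizontal side, domain above. -/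
def JB (q : ZMod N → ℤ × ℤ) (D : Finset (ℤ × ℤ)) (s : ℕ) (R : ℤ) : Prop :=
  s ≤ N ∧ JW (qr q s) D (N - s) R

theorem qr_base (hs : s ≤ N) : qr q s ((N - s : ℕ) : ZMod N) = q 0 := by
  show q (((N - s : ℕ) : ZMod N) + (s : ZMod N)) = q 0
  rw [← Nat.cast_add, Nat.sub_add_cancel hs, ZMod.natCast_self]

/-- The feet of a strand in the window. -/
structure OvB (N s : ℕ) (q : ZMod N → ℤ × ℤ) (e : Bool) (A : Finset Ed) (x y : ℕ) : Prop where
  xy : IsXY q A x y
  ov : if e = true then (x < s ∧ s ≤ y) else (y < s ∧ s ≤ x)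

/-- **If a path of the other colour goes around the base, then a strand does.** -/
theorem exists_ovB (hq : IsPolygon q) (hD : Encloses q D) (hW : JB q D s R) (hr1 : 1 ≤ r)
    (hrR : r + 1 ≤ R) (hpar : ((q 0).1 + (q 0).2) % 2 = pr e) (h : ω ∉ Ea e D (q 0) r) :
    ∃ A ∈ pcs ω D, ¬ IsLp D A ∧ (∀ g ∈ A, hdv g ∈ Bq (q 0) r) ∧ ∃ x y, OvB N s q e A x y := by
  obtain ⟨hs, hW⟩ := hW
  rw [← qr_base (q := q) hs] at hpar h ⊢
  obtain ⟨A, h1, h2, h3, x, y, h4, h5⟩ := exists_inner (qr_poly hq s) (qr_encl hD s) hW hr1 hrR hpar h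
  refine ⟨A, h1, h2, h3, _, _, xy_old hq hs h4, ?_⟩
  have hx := h4.1
  have hy := h4.2.1
  unfold oldi
  cases e
  · simp only [Bool.false_eq_true, if_false] at h5 ⊢
    rw [if_pos h5.1, if_neg (by omega)]
    omega
  · simp only [if_true] at h5 ⊢
    rw [if_pos h5.1, if_neg (by omega)]
    omega

/-- **On the event no strand in the box goes around the base.** -/
theorem not_over (hq : IsPolygon q) (hD : Encloses q D) (hW : JB q D s R) (hrR : r + 2 ≤ R)
    (hpar : ((q 0).1 + (q 0).2) % 2 = pr e) (h : ω ∈ Ea e D (q 0) r) (hA : A ∈ pcs ω D)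
    (hl : ¬ IsLp D A) (hin : ∀ g ∈ A, hdv g ∈ Bq (q 0) r) : ¬ (lo q A < s ∧ s ≤ hi q A) := by
  obtain ⟨hs, hW⟩ := hW
  rw [← qr_base (q := q) hs] at hpar h hin
  have h1 := noFw_of_Ea (qr_poly hq s) (qr_encl hD s) hW hrR hpar h hA hl hin
  rintro ⟨h2, h3⟩
  apply h1
  obtain ⟨x, y, hxy⟩ := exists_xy (qr_poly hq s) (qr_encl hD s) hA hl
  have hxy' := xy_old hq hs hxy
  rw [lo_xy hq hD hA hxy'] at h2
  rw [hi_xy hq hD hA hxy'] at h3
  rw [lo_xy (qr_poly hq s) (qr_encl hD s) hA hxy, hi_xy (qr_poly hq s) (qr_encl hD s) hA hxy]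
  have hx := hxy.1
  have hy := hxy.2.1
  unfold oldi at h2 h3
  split_ifs at h2 h3 <;> omega

end Vale.Agent.P167.H975
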