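import Vale.Agent.P167.H718.E2c
import Vale.Agent.P167.H871.Dom
import Vale.Agent.P167.BR.Sym

/-!
# P167, general `q`, block Q-LAM (LK): locality and transport of the pieces in a box

`mem_pcs_agree`: a piece of `D` in the configuration `ω` is a piece of `D'` in the configuration `ω'`
if the two domains and the two configurations agree along it. `mem_pcs_tr`: the same up to an even
translation. `sum`: `inP B A`: all the heads of the edges of `A` are in `B`; the pieces in a box of two
domains which agree in the box correspond to each other.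
-/

namespace Vale.Agent.P167.H975

open Finset Vale.Agent.P167.BR
open Vale.Agent.P167.H135 (shC shE hdv_sh shE_inj shE_neg)

variable {ω ω' : Cfg} {D D' B : Finset (ℤ × ℤ)} {e : Ed} {A : Finset Ed} {t : ℤ × ℤ}

/-- A piece of `D` is a piece of `D'` if the domains and the configurations agree along it. -/
theorem mem_pcs_agree (hA : A ∈ pcs ω D) (h1 : ∀ e ∈ A, (hdv e ∈ D ↔ hdv e ∈ D'))
    (h2 : ∀ e ∈ A, (tlv e ∈ D ↔ tlv e ∈ D')) (h3 : ∀ e ∈ A, hdv e ∈ D → ω (hdv e) = ω' (hdv e)) :
    A ∈ pcs ω' D' := by
  obtain ⟨e0, he0⟩ := pcs_nonempty hA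
  have hnx : ∀ e ∈ A, hdv e ∈ D → nx ω e = nx ω' e := fun e he hd => nx_congr (h3 e he hd)
  have hed : ∀ e ∈ A, e ∈ eds D' := by
    intro e he
    rcases mem_eds.1 (subset_eds hA he) with h | h
    · exact mem_eds.2 (Or.inl ((h1 e he).1 h))
    · exact mem_eds.2 (Or.inr ((h2 e he).1 h))
  -- runs in `A`
  have run : ∀ (k : ℕ) (a b : Ed), a ∈ A → Run ω D a k b → Run ω' D' a k b := by
    intro k
    induction k with
    | zero =>
      intro a b _ hr
      exact ⟨hr.1, fun j hj => absurd hj (Nat.not_lt_zero _)⟩
    | succ k ih =>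
      intro a b ha hr
      have hd : hdv a ∈ D := hr.2 0 (by omega)
      have hn : nx ω a ∈ A := (nx_mem_iff hA hd).1 ha
      have hr' : Run ω D (nx ω a) k b := by
        refine ⟨?_, fun j hj => ?_⟩
        · rw [← Function.iterate_succ_apply, hr.1]
        · rw [← Function.iterate_succ_apply]
          exact hr.2 _ (by omega)
      have h4 := ih _ _ hn hr'
      rw [hnx a ha hd] at h4
      have h5 := (Run.one (ω := ω') (D := D') (e := a) ((h1 a ha).1 hd)).trans h4
      rwa [add_comm] at h5
  have fw : ∀ (k : ℕ) (a b : Ed), a ∈ A → Run ω' D' a k b → b ∈ A := by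
    intro k
    induction k with
    | zero =>
      intro a b ha hr
      obtain rfl : a = b := hr.1
      exact ha
    | succ k ih =>
      intro a b ha hr
      have h0 : hdv a ∈ D := (h1 a ha).2 (hr.2 0 (by omega))
      have hn : nx ω' a ∈ A := by
        rw [← hnx a ha h0]
        exact (nx_mem_iff hA h0).1 ha
      refine ih (nx ω' a) b hn ⟨?_, fun j hj => ?_⟩
      · rw [← Function.iterate_succ_apply, hr.1]
      · rw [← Function.iterate_succ_apply]
        exact hr.2 _ (by omega)
  have bw : ∀ (k : ℕ) (a b : Ed), b ∈ A → Run ω' D' a k b → a ∈ A := by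
    intro k
    induction k with
    | zero =>
      intro a b hb hr
      obtain rfl : a = b := hr.1
      exact hb
    | succ k ih =>
      intro a b hb hr
      set c := (nx ω')^[k] a with hc
      have hcb : nx ω' c = b := by rw [hc, ← Function.iterate_succ_apply' (nx ω'), hr.1]
      have hcd : hdv c ∈ D' := hr.2 k (by omega)
      have htl : tlv b = hdv c := by rw [← hcb, tlv_nx]
      have htD : tlv b ∈ D := (h2 b hb).2 (by rw [htl]; exact hcd)
      obtain ⟨c', hc'⟩ := (s_nx ω).2 b
      have hc'd : hdv c' = tlv b := by rw [← hc', tlv_nx]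
      have hc'A : c' ∈ A := by
        rw [nx_mem_iff hA (by rw [hc'd]; exact htD), hc']
        exact hb
      have hcc : c' = c := by
        apply (s_nx ω').1
        rw [← hnx c' hc'A (by rw [hc'd]; exact htD), hc', hcb]
      refine ih a c (hcc ▸ hc'A) ⟨hc.symm, fun j hj => hr.2 j (by omega)⟩
  have hEq : A = piece ω' D' e0 := by
    ext e
    rw [mem_piece]
    constructor
    · intro he
      refine ⟨hed e he, eqvGen_iff.mpr ?_⟩
      obtain ⟨k, hk | hk⟩ := run_of_mem hA he0 he
      · exact ⟨k, Or.inl (run k _ _ he0 hk)⟩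
      · exact ⟨k, Or.inr (run k _ _ he hk)⟩
    · rintro ⟨_, h⟩
      obtain ⟨k, hk | hk⟩ := eqvGen_iff.mp h
      · exact fw k _ _ he0 hk
      · exact bw k _ _ he0 hk
  rw [hEq]
  exact piece_mem_pcs (hed e0 he0)

end Vale.Agent.P167.H975
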