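import Vale.Agent.P167.H975.LkB
import Vale.Agent.P167.H718.Par6

/-!
# P167, general `q`, block Q-LAM (LK): transport of the weights of the image functional

`wJ`: the weight of a piece in the image functional without charge (`1` on loops). `IM`: the sides of two
polygons in a box correspond to each other by an increasing map of the indices which respects the
differences of the directions and the positions relative to the junctions.
-/

namespace Vale.Agent.P167.H975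

open Finset Vale.Agent.P167.BR
open Vale.Agent.P167.E6 (IsPolygon Encloses)
open Vale.Agent.P167.FK (Bq)
open Vale.Agent.P167.H135 (shC shE hdv_sh shE_inj)
open Vale.Agent.P167.QX (lo hi lo_xy hi_xy exists_xy wB)
open Vale.Agent.P167.H718 (rc IsXY IsCl Cl isCl_strand exists_in exists_out)

variable {ω ω' : Cfg} {D D' : Finset (ℤ × ℤ)} {e : Ed} {A : Finset Ed} {t c : ℤ × ℤ} {r R : ℤ}
  {n n' k k' : ℕ} {q : ZMod n → ℤ × ℤ} {q' : ZMod n' → ℤ × ℤ} {τ τ' : ℕ → ℤ} {σ : ℕ → ℕ}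
  {θ β : ℝ}

/-- The weight of a piece in the image functional without charge. -/
noncomputable def wJ (θ β : ℝ) (q : ZMod n → ℤ × ℤ) (D : Finset (ℤ × ℤ)) (k : ℕ) (τ : ℕ → ℤ)
    (A : Finset Ed) : ℝ := wB θ β q D k A (rc θ β τ k (hi q A) - rc θ β τ k (lo q A))

/-- Correspondence of the sides in a box. -/
structure IM (q : ZMod n → ℤ × ℤ) (k : ℕ) (τ : ℕ → ℤ) (q' : ZMod n' → ℤ × ℤ) (k' : ℕ)
    (τ' : ℕ → ℤ) (c t : ℤ × ℤ) (r : ℤ) (σ : ℕ → ℕ) : Prop where
  map : ∀ j < n, hdv (be q (j : ZMod n)) ∈ Bq c r → σ j < n' ∧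
    be q' ((σ j : ℕ) : ZMod n') = shE t (be q (j : ZMod n)) ∧ (σ j < k' ↔ j < k)
  mono : ∀ i j : ℕ, j < n → i < j → hdv (be q (i : ZMod n)) ∈ Bq c r →
    hdv (be q (j : ZMod n)) ∈ Bq c r → σ i < σ j ∧ τ' (σ j) - τ' (σ i) = τ j - τ i

section

variable (hq : IsPolygon q) (hD : Encloses q D)
include hq hD

theorem side_lp (hl : IsLp D A) (hA : A ∈ pcs ω D) (j : ZMod n) : be q j ∉ A := by
  intro hj
  rcases be_bd hq hD j with ⟨_, h⟩ | ⟨_, h⟩
  · exact h (hl.tl hA hj)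
  · exact h (hl _ hj)

theorem lo_lp (hl : IsLp D A) (hA : A ∈ pcs ω D) : lo q A = 0 ∧ hi q A = 0 := by
  have h : {k | k < n ∧ be q (k : ZMod n) ∈ A} = ∅ := by
    ext k
    simp only [Set.mem_ofPred_eq, Set.mem_empty_iff_false, iff_false, not_and]
    exact fun _ => side_lp hq hD hl hA _
  unfold lo hi
  rw [h]
  simp

theorem wJ_lp (hc : Real.cos θ ≠ 0) (hl : IsLp D A) (hA : A ∈ pcs ω D) :
    wJ θ β q D k τ A = 1 := by
  obtain ⟨h1, h2⟩ := lo_lp hq hD hl hA
  unfold wJ wB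
  rw [if_pos hl, h1, h2, sub_self, add_zero, div_self hc]

end

theorem isLp_tr (ht : Even (t.1 + t.2)) (h : Agr D D' c t r) (hB : ∀ e ∈ A, hdv e ∈ Bq c r) :
    IsLp D' (A.image (shE t)) ↔ IsLp D A := by
  unfold IsLp
  rw [forall_mem_image]
  refine forall₂_congr fun e he => ?_
  rw [hdv_sh ht]
  exact (h _ (hB e he)).symm

/-- The strand in terms of the other polygon. -/
theorem isXY_tr (hq : IsPolygon q) (hD : Encloses q D) (hq' : IsPolygon q') (hD' : Encloses q' D')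
    (ht : Even (t.1 + t.2)) (h : Agr D D' c t r)
    (hσ : IM q k τ q' k' τ' c t r σ) (hB : ∀ e ∈ A, hdv e ∈ Bq c r) {x y : ℕ}
    (hxy : IsXY q A x y) : IsXY q' (A.image (shE t)) (σ x) (σ y) := by
  obtain ⟨hx, hy, h1, h2, h3, h4⟩ := hxy
  obtain ⟨a1, a2, -⟩ := hσ.map x hx (hB _ h1)
  obtain ⟨b1, b2, -⟩ := hσ.map y hy (hB _ h2)
  refine ⟨a1, b1, ?_, ?_, ?_, ?_⟩
  · rw [a2]; exact mem_image_of_mem _ h1
  · rw [b2]; exact mem_image_of_mem _ h2
  · by_contra hc
    have h5 := (be_odd hq' hD' hc).2.2.2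
    rw [a2, hdv_sh ht, ← h _ (hB _ h1)] at h5
    exact h5 (be_even hq hD h3).2.2.1
  · intro hc
    have h5 := (be_even hq' hD' hc).2.2.1
    rw [b2, hdv_sh ht, ← h _ (hB _ h2)] at h5
    exact (be_odd hq hD h4).2.2.2 h5

/-- **Transport of the weights.** -/
theorem wJ_tr (hc : Real.cos θ ≠ 0) (hq : IsPolygon q) (hD : Encloses q D) (hq' : IsPolygon q')
    (hD' : Encloses q' D') (ht : Even (t.1 + t.2)) (h : Agr D D' c t (r + 1))
    (hσ : IM q k τ q' k' τ' c t r σ) (hA : A ∈ pcs ω D) (hB : ∀ e ∈ A, hdv e ∈ Bq c r) :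
    wJ θ β q' D' k' τ' (A.image (shE t)) = wJ θ β q D k τ A := by
  classical
  have hr : Agr D D' c t r := h.mono (by omega)
  -- the transported piece
  set ω'' : Cfg := fun v => ω (v - t) with hω''
  have hA' : A.image (shE t) ∈ pcs ω'' D' :=
    (pcs_tr ht h (fun v _ _ => by simp [hω'']) hA hB).1
  by_cases hl : IsLp D A
  · rw [wJ_lp hq hD hc hl hA, wJ_lp hq' hD' hc ((isLp_tr ht hr hB).2 hl) hA']
  · have hl' : ¬ IsLp D' (A.image (shE t)) := fun h' => hl ((isLp_tr ht hr hB).1 h')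
    obtain ⟨x, y, hxy⟩ := exists_xy hq hD hA hl
    have hxy' := isXY_tr hq hD hq' hD' ht hr hσ hB hxy
    have hcl := isCl_strand (k := k) hq hD hA hl hxy
    have hcl' := isCl_strand (k := k') hq' hD' hA' hl' hxy'
    have hne := hxy.ne
    have hlo := lo_xy hq hD hA hxy
    have hhi := hi_xy hq hD hA hxy
    have hlo' := lo_xy hq' hD' hA' hxy'
    have hhi' := hi_xy hq' hD' hA' hxy'
    obtain ⟨hx, hy, h1, h2, -, -⟩ := hxy
    have kx := (hσ.map x hx (hB _ h1)).2.2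
    have ky := (hσ.map y hy (hB _ h2)).2.2
    have key : ∀ i j : ℕ, i < j → (σ i < k' ↔ i < k) → (σ j < k' ↔ j < k) →
        τ' (σ j) - τ' (σ i) = τ j - τ i →
        rc θ β τ' k' (σ j) - rc θ β τ' k' (σ i) = rc θ β τ k j - rc θ β τ k i := by
      intro i j _ hi hj hd
      have hd' : (τ' (σ j) : ℝ) - τ' (σ i) = τ j - τ i := by exact_mod_cast hd
      unfold rc
      simp only [hi, hj]
      linear_combination (-(θ / 2)) * hd'
    have hClt : Cl k' (σ x) (σ y) ↔ Cl k x y := by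
      unfold Cl
      rcases Nat.lt_or_gt_of_ne hne with hlt | hlt
      · have := (hσ.mono x y hy hlt (hB _ h1) (hB _ h2)).1
        omega
      · have := (hσ.mono y x hx hlt (hB _ h2) (hB _ h1)).1
        omega
    unfold wJ wB
    rw [if_neg hl, if_neg hl', hlo, hhi, hlo', hhi']
    simp only [hcl, hcl', hClt]
    rcases Nat.lt_or_gt_of_ne hne with hlt | hlt
    · obtain ⟨g1, g2⟩ := hσ.mono x y hy hlt (hB _ h1) (hB _ h2)
      rw [min_eq_left hlt.le, max_eq_right hlt.le, min_eq_left g1.le, max_eq_right g1.le,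
        key x y hlt kx ky g2]
      have e1 : (σ x < k' ∧ k' ≤ σ y) ↔ (x < k ∧ k ≤ y) := by omega
      simp only [e1]
    · obtain ⟨g1, g2⟩ := hσ.mono y x hx hlt (hB _ h2) (hB _ h1)
      rw [min_eq_right hlt.le, max_eq_left hlt.le, min_eq_right g1.le, max_eq_left g1.le,
        key y x hlt ky kx g2]
      have e1 : (σ y < k' ∧ k' ≤ σ x) ↔ (y < k ∧ k ≤ x) := by omega
      simp only [e1]

end Vale.Agent.P167.H975
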