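import Vale.Agent.P167.H975.LkC
import Vale.Agent.P167.H601.LG.Idx

/-!
# P167, general `q`, block Q-LAM (LK): windows

If the paths of two polygons agree, up to a translation, in a window of indices which contains all the
sides in the box, then the sides correspond (`IM_mid`: window without the base, `IM_base`: window around
the base) and the domains agree in the box (`agr_win`).
-/

namespace Vale.Agent.P167.H975

open Finset Vale.Agent.P167.BR
open Vale.Agent.P167.E6 (IsPolygon Encloses dir face)
open Vale.Agent.P167.E2 (ro ro_spec ro_unique)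
open Vale.Agent.P167.FK (Bq)
open Vale.Agent.P167.H135 (shE)
open Vale.Agent.P167.H718 (ce_add)
open Vale.Agent.P167.H871 (Bd)

variable {D D' : Finset (ℤ × ℤ)} {t c : ℤ × ℤ} {r R : ℤ}
  {n n' k k' : ℕ} {q : ZMod n → ℤ × ℤ} {q' : ZMod n' → ℤ × ℤ} {τ τ' : ℕ → ℤ}

/-- The sides agree if their ends agree. -/
theorem be_loc (hq : IsPolygon q) (hq' : IsPolygon q') {i : ZMod n} {i' : ZMod n'}
    (h1 : q' i' = q i + t) (h2 : q' (i' + 1) = q (i + 1) + t) : be q' i' = shE t (be q i) := by
  have h : ro q i = ro q' i' := by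
    apply ro_unique hq'
    rw [h1, h2, ro_spec hq i]
    ring
  unfold be
  rw [← h, h1, ce_add]

/-- The paths agree in the window of radius `d` around `J`. -/
def Win (q : ZMod n → ℤ × ℤ) (q' : ZMod n' → ℤ × ℤ) (J J' d : ℕ) (t : ℤ × ℤ) : Prop :=
  ∀ m ≤ 2 * d + 1, q' ((J' - d + m : ℕ) : ZMod n') = q ((J - d + m : ℕ) : ZMod n) + t

section

variable {J J' d : ℕ}

theorem Win.be (h : Win q q' J J' d t) (hq : IsPolygon q) (hq' : IsPolygon q') {m : ℕ}
    (hm : m ≤ 2 * d) : be q' ((J' - d + m : ℕ) : ZMod n') = shE t (be q ((J - d + m : ℕ) : ZMod n)) := by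
  refine be_loc hq hq' (h m (by omega)) ?_
  have h1 := h (m + 1) (by omega)
  rw [← add_assoc, ← add_assoc, Nat.cast_add _ 1, Nat.cast_add (J - d + m) 1, Nat.cast_one,
    Nat.cast_one] at h1
  exact h1

theorem Win.tau (h : Win q q' J J' d t)
    (hu : Bd (D : Set (ℤ × ℤ)) n (fun j => q (j : ZMod n)) τ 1)
    (hu' : Bd (D' : Set (ℤ × ℤ)) n' (fun j => q' (j : ZMod n')) τ' 1) {m : ℕ} (hm : m ≤ 2 * d) :
    τ' (J' - d + m) - τ' (J' - d) = τ (J - d + m) - τ (J - d) := by
  have key : ∀ m ≤ 2 * d, Top.vec (τ' (J' - d + m)) = Top.vec (τ (J - d + m)) := by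
    intro m hm
    have h1 := h m (by omega)
    have h2 := h (m + 1) (by omega)
    have h3 := hu.step (J - d + m)
    have h4 := hu'.step (J' - d + m)
    rw [← add_assoc, ← add_assoc] at h2
    change q' ((J' - d + m + 1 : ℕ) : ZMod n') = q' ((J' - d + m : ℕ) : ZMod n') + _ at h4
    change q ((J - d + m + 1 : ℕ) : ZMod n) = q ((J - d + m : ℕ) : ZMod n) + _ at h3
    rw [h3, h4, h1] at h2
    have h5 : q ((J - d + m : ℕ) : ZMod n) + t + Top.vec (τ' (J' - d + m)) =
        q ((J - d + m : ℕ) : ZMod n) + t + Top.vec (τ (J - d + m)) := by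
      rw [h2]; ring
    exact add_left_cancel h5
  induction m with
  | zero => simp
  | succ m ih =>
    have h1 := ih (by omega)
    have h2 := Enl.vec_eq_mod (key m (by omega))
    have h3 := Enl.vec_eq_mod (key (m + 1) (by omega))
    have h4 := hu.turn (J - d + m)
    have h5 := hu'.turn (J' - d + m)
    rw [← add_assoc, ← add_assoc] at *
    rw [abs_le] at h4 h5
    omega

theorem Win.tau2 (h : Win q q' J J' d t)
    (hu : Bd (D : Set (ℤ × ℤ)) n (fun j => q (j : ZMod n)) τ 1)
    (hu' : Bd (D' : Set (ℤ × ℤ)) n' (fun j => q' (j : ZMod n')) τ' 1) {x y : ℕ} (hx : x ≤ 2 * d)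
    (hy : y ≤ 2 * d) :
    τ' (J' - d + y) - τ' (J' - d + x) = τ (J - d + y) - τ (J - d + x) := by
  have h1 := h.tau hu hu' hx
  have h2 := h.tau hu hu' hy
  omega

/-- **Windows without the base.** -/
theorem IM_mid (h : Win q q' J J' d t) (hq : IsPolygon q) (hq' : IsPolygon q')
    (hu : Bd (D : Set (ℤ × ℤ)) n (fun j => q (j : ZMod n)) τ 1)
    (hu' : Bd (D' : Set (ℤ × ℤ)) n' (fun j => q' (j : ZMod n')) τ' 1)
    (h1 : d ≤ J) (h1' : d ≤ J') (h2' : J' + d < n')
    (hnear : ∀ j < n, hdv (BR.be q (j : ZMod n)) ∈ Bq c r → J ≤ j + d ∧ j ≤ J + d)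
    (hk : ∀ j, J ≤ j + d → j ≤ J + d → (j + J' - J < k' ↔ j < k)) :
    IM q k τ q' k' τ' c t r (fun j => j + J' - J) where
  map j hj hb := by
    obtain ⟨a, b⟩ := hnear j hj hb
    refine ⟨by omega, ?_, hk j a b⟩
    have e := h.be hq hq' (m := j + d - J) (by omega)
    have e1 : J' - d + (j + d - J) = j + J' - J := by omega
    have e2 : J - d + (j + d - J) = j := by omega
    rw [e1, e2] at e
    exact e
  mono i j hj hij hi hb := by
    obtain ⟨a, b⟩ := hnear j hj hb
    obtain ⟨a', b'⟩ := hnear i (by omega) hi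
    refine ⟨by omega, ?_⟩
    have e := h.tau2 hu hu' (x := i + d - J) (y := j + d - J) (by omega) (by omega)
    have e1 : J' - d + (j + d - J) = j + J' - J := by omega
    have e2 : J - d + (j + d - J) = j := by omega
    have e3 : J' - d + (i + d - J) = i + J' - J := by omega
    have e4 : J - d + (i + d - J) = i := by omega
    rw [e1, e2, e3, e4] at e
    exact e

/-- **Windows around the base.** -/
theorem IM_base (h : Win q q' n n' d t) (hq : IsPolygon q) (hq' : IsPolygon q')
    (hu : Bd (D : Set (ℤ × ℤ)) n (fun j => q (j : ZMod n)) τ 1)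
    (hu' : Bd (D' : Set (ℤ × ℤ)) n' (fun j => q' (j : ZMod n')) τ' 1)
    (h1 : 2 * d < n) (h1' : 2 * d < n')
    (hnear : ∀ j < n, hdv (BR.be q (j : ZMod n)) ∈ Bq c r → n ≤ j + d ∨ j ≤ d)
    (hk : ∀ j ≤ d, (j < k' ↔ j < k)) (hk' : ∀ j < n, n ≤ j + d → (j + n' - n < k' ↔ j < k)) :
    IM q k τ q' k' τ' c t r (fun j => if n ≤ j + d then j + n' - n else j) where
  map j hj hb := by
    by_cases a : n ≤ j + d
    · simp only [if_pos a]
      refine ⟨by omega, ?_, hk' j hj a⟩
      have e := h.be hq hq' (m := j + d - n) (by omega)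
      have e1 : n' - d + (j + d - n) = j + n' - n := by omega
      have e2 : n - d + (j + d - n) = j := by omega
      rw [e1, e2] at e
      exact e
    · simp only [if_neg a]
      have b : j ≤ d := by
        rcases hnear j hj hb with b | b
        · exact absurd b a
        · exact b
      refine ⟨by omega, ?_, hk j b⟩
      have e := h.be hq hq' (m := j + d) (by omega)
      have e1 : n' - d + (j + d) = n' + j := by omega
      have e2 : n - d + (j + d) = n + j := by omega
      rw [e1, e2, Nat.cast_add, Nat.cast_add, ZMod.natCast_self, ZMod.natCast_self, zero_add,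
        zero_add] at e
      exact e
  mono i j hj hij hi hb := by
    have a := hnear j hj hb
    have b := hnear i (by omega) hi
    have p1 : ∀ m, τ (n + m) = τ m + 4 := fun m => by rw [add_comm, hu.per m]; ring
    have p2 : ∀ m, τ' (n' + m) = τ' m + 4 := fun m => by rw [add_comm, hu'.per m]; ring
    -- the shifted index
    by_cases a1 : n ≤ i + d
    · have a2 : n ≤ j + d := by omega
      simp only [if_pos a1, if_pos a2]
      refine ⟨by omega, ?_⟩
      have e := h.tau2 hu hu' (x := i + d - n) (y := j + d - n) (by omega) (by omega)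
      have e1 : n' - d + (j + d - n) = j + n' - n := by omega
      have e2 : n - d + (j + d - n) = j := by omega
      have e3 : n' - d + (i + d - n) = i + n' - n := by omega
      have e4 : n - d + (i + d - n) = i := by omega
      rw [e1, e2, e3, e4] at e
      exact e
    · have b1 : i ≤ d := by omega
      by_cases a2 : n ≤ j + d
      · simp only [if_neg a1, if_pos a2]
        refine ⟨by omega, ?_⟩
        have e := h.tau2 hu hu' (x := i + d) (y := j + d - n) (by omega) (by omega)
        have e1 : n' - d + (j + d - n) = j + n' - n := by omega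
        have e2 : n - d + (j + d - n) = j := by omega
        have e3 : n' - d + (i + d) = n' + i := by omega
        have e4 : n - d + (i + d) = n + i := by omega
        rw [e1, e2, e3, e4, p1, p2] at e
        omega
      · simp only [if_neg a1, if_neg a2]
        refine ⟨by omega, ?_⟩
        have e := h.tau2 hu hu' (x := i + d) (y := j + d) (by omega) (by omega)
        have e1 : n' - d + (j + d) = n' + j := by omega
        have e2 : n - d + (j + d) = n + j := by omega
        have e3 : n' - d + (i + d) = n' + i := by omega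
        have e4 : n - d + (i + d) = n + i := by omega
        rw [e1, e2, e3, e4, p1, p2, p1, p2] at e
        omega

end

/-! ### The domains agree in the box -/

/-- Common sides. -/
theorem side_iff (hD : Encloses q D) (hD' : Encloses q' D')
    (h : ∀ i : ZMod n, ∀ s, face (q i) s ∈ Bq c R → ∃ i' : ZMod n', q' i' = q i + t ∧
      q' (i' + 1) = q (i + 1) + t)
    (h' : ∀ i' : ZMod n', ∀ s, face (q' i') s ∈ Bq (c + t) R → ∃ i : ZMod n, q' i' = q i + t ∧
      q' (i' + 1) = q (i + 1) + t) {v : ℤ × ℤ} {s : Fin 4} (hv : face v s ∈ Bq c R) :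
    (face v s ∈ D ∧ face v (s - 1) ∉ D) ↔ (face v s + t ∈ D' ∧ face v (s - 1) + t ∉ D') := by
  have f : ∀ s, face v s + t = face (v + t) s := fun s => by unfold face; ring
  rw [f, f, ← hD v s, ← hD' (v + t) s]
  constructor
  · rintro ⟨i, rfl, h2⟩
    obtain ⟨i', k1, k2⟩ := h i s hv
    refine ⟨i', k1, ?_⟩
    rw [k2, h2]
    ring
  · rintro ⟨i', h1, h2⟩
    have hv' : face (q' i') s ∈ Bq (c + t) R := by
      rw [h1, ← f, lkBq_add]
      exact hv
    obtain ⟨i, k1, k2⟩ := h' i' s hv'
    refine ⟨i, ?_, ?_⟩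
    · rw [h1] at k1
      exact (add_right_cancel k1).symm
    · rw [h2] at k2
      have k3 : q (i + 1) + t = v + dir s + t := by rw [← k2]; ring
      exact add_right_cancel k3

/-- A box is connected. -/
theorem box_conn {P : ℤ × ℤ → Prop} (hx : ∀ v, v ∈ Bq c R → v + (1, 0) ∈ Bq c R → (P v ↔ P (v + (1, 0))))
    (hy : ∀ v, v ∈ Bq c R → v + (0, 1) ∈ Bq c R → (P v ↔ P (v + (0, 1)))) {v w : ℤ × ℤ}
    (hv : v ∈ Bq c R) (hw : w ∈ Bq c R) : P v ↔ P w := by
  have row : ∀ (m : ℕ) (v : ℤ × ℤ), v ∈ Bq c R → v + ((m : ℤ), 0) ∈ Bq c R →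
      (P v ↔ P (v + ((m : ℤ), 0))) := by
    intro m
    induction m with
    | zero =>
      intro v _ _
      have : v + (((0 : ℕ) : ℤ), (0 : ℤ)) = v := by ext <;> simp
      rw [this]
    | succ m ih =>
      intro v h1 h2
      have h3 : v + ((m : ℤ), 0) ∈ Bq c R := by
        rw [lkBq] at *
        simp only [Prod.fst_add, Prod.snd_add] at *
        push_cast at *
        omega
      have e : v + ((m : ℤ), 0) + (1, 0) = v + (((m + 1 : ℕ) : ℤ), 0) := by
        ext
        · simp only [Prod.fst_add]; push_cast; ring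
        · simp only [Prod.snd_add]; ring
      rw [ih v h1 h3, hx _ h3 (by rw [e]; exact h2), e]
  have col : ∀ (m : ℕ) (v : ℤ × ℤ), v ∈ Bq c R → v + (0, (m : ℤ)) ∈ Bq c R →
      (P v ↔ P (v + (0, (m : ℤ)))) := by
    intro m
    induction m with
    | zero =>
      intro v _ _
      have : v + ((0 : ℤ), ((0 : ℕ) : ℤ)) = v := by ext <;> simp
      rw [this]
    | succ m ih =>
      intro v h1 h2
      have h3 : v + (0, (m : ℤ)) ∈ Bq c R := by
        rw [lkBq] at *
        simp only [Prod.fst_add, Prod.snd_add] at *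
        push_cast at *
        omega
      have e : v + (0, (m : ℤ)) + (0, 1) = v + (0, ((m + 1 : ℕ) : ℤ)) := by
        ext
        · simp only [Prod.fst_add]; ring
        · simp only [Prod.snd_add]; push_cast; ring
      rw [ih v h1 h3, hy _ h3 (by rw [e]; exact h2), e]
  -- along a row, in both directions
  have row' : ∀ a b y : ℤ, (a, y) ∈ Bq c R → (b, y) ∈ Bq c R → (P (a, y) ↔ P (b, y)) := by
    intro a b y h1 h2
    rcases le_total a b with h | h
    · have e : ((a, y) : ℤ × ℤ) + (((b - a).toNat : ℤ), 0) = (b, y) := by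
        ext
        · simp only [Prod.fst_add]; omega
        · simp
      have := row (b - a).toNat (a, y) h1 (by rw [e]; exact h2)
      rwa [e] at this
    · have e : ((b, y) : ℤ × ℤ) + (((a - b).toNat : ℤ), 0) = (a, y) := by
        ext
        · simp only [Prod.fst_add]; omega
        · simp
      have := row (a - b).toNat (b, y) h2 (by rw [e]; exact h1)
      rw [e] at this
      exact this.symm
  have col' : ∀ x a b : ℤ, (x, a) ∈ Bq c R → (x, b) ∈ Bq c R → (P (x, a) ↔ P (x, b)) := by
    intro x a b h1 h2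
    rcases le_total a b with h | h
    · have e : ((x, a) : ℤ × ℤ) + (0, ((b - a).toNat : ℤ)) = (x, b) := by
        ext
        · simp
        · simp only [Prod.snd_add]; omega
      have := col (b - a).toNat (x, a) h1 (by rw [e]; exact h2)
      rwa [e] at this
    · have e : ((x, b) : ℤ × ℤ) + (0, ((a - b).toNat : ℤ)) = (x, a) := by
        ext
        · simp
        · simp only [Prod.snd_add]; omega
      have := col (a - b).toNat (x, b) h2 (by rw [e]; exact h1)
      rw [e] at this
      exact this.symm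
  obtain ⟨v1, v2⟩ := v
  obtain ⟨w1, w2⟩ := w
  have h3 : (w1, v2) ∈ Bq c R := by
    rw [lkBq] at *
    exact ⟨hw.1, hv.2⟩
  rw [row' v1 w1 v2 hv h3, col' w1 v2 w2 h3 hw]

theorem prop4 {a b a' b' : Prop} (h1 : (a ∧ ¬ b) ↔ (a' ∧ ¬ b')) (h2 : (b ∧ ¬ a) ↔ (b' ∧ ¬ a')) :
    (a ↔ a') ↔ (b ↔ b') := by
  by_cases x : a <;> by_cases y : b <;> by_cases x' : a' <;> by_cases y' : b' <;> simp_all

/-- **The domains agree in the box** if the sides correspond and one square agrees. -/
theorem agr_of (hD : Encloses q D) (hD' : Encloses q' D')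
    (h : ∀ i : ZMod n, ∀ s, face (q i) s ∈ Bq c R → ∃ i' : ZMod n', q' i' = q i + t ∧
      q' (i' + 1) = q (i + 1) + t)
    (h' : ∀ i' : ZMod n', ∀ s, face (q' i') s ∈ Bq (c + t) R → ∃ i : ZMod n, q' i' = q i + t ∧
      q' (i' + 1) = q (i + 1) + t) {v₀ : ℤ × ℤ} (h0 : v₀ ∈ Bq c R) (h1 : v₀ ∈ D)
    (h1' : v₀ + t ∈ D') : Agr D D' c t R := by
  -- adjacent squares
  have key : ∀ (v : ℤ × ℤ) (s : Fin 4), face v s ∈ Bq c R → face v (s - 1) ∈ Bq c R →
      ((face v s ∈ D ↔ face v s + t ∈ D') ↔ (face v (s - 1) ∈ D ↔ face v (s - 1) + t ∈ D')) := by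
    intro v s hv hv'
    have a1 := side_iff hD hD' h h' hv
    -- the reversed side
    have e1 : face (v + dir s) (s + 2) = face v (s - 1) := by
      unfold face dir
      fin_cases s <;> (ext <;> simp <;> ring)
    have e2 : face (v + dir s) (s + 2 - 1) = face v s := by
      unfold face dir
      fin_cases s <;> (ext <;> simp <;> ring)
    have a2 := side_iff hD hD' h h' (v := v + dir s) (s := s + 2) (by rw [e1]; exact hv')
    rw [e1, e2] at a2
    exact prop4 a1 a2
  have hall : ∀ v ∈ Bq c R, ((v ∈ D ↔ v + t ∈ D') ↔ (v₀ ∈ D ↔ v₀ + t ∈ D')) := by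
    intro v hv
    refine box_conn (P := fun v => (v ∈ D ↔ v + t ∈ D')) (fun v k1 k2 => ?_) (fun v k1 k2 => ?_)
      hv h0
    · -- the common side of v and v + (1,0) is vertical, from v + (1, 0) upwards
      have e1 : face (v + (1, 0)) 1 = v := by
        ext <;> simp [face]
      have e2 : face (v + (1, 0)) (1 - 1) = v + (1, 0) := by
        ext <;> simp [face]
      have := key (v + (1, 0)) 1 (by rw [e1]; exact k1) (by rw [e2]; exact k2)
      rw [e1, e2] at this
      exact this
    · have e1 : face (v + (0, 1)) 0 = v + (0, 1) := by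
        ext <;> simp [face]
      have e2 : face (v + (0, 1)) (0 - 1) = v := by
        have : (0 - 1 : Fin 4) = 3 := rfl
        rw [this]
        ext <;> simp [face]
      have := key (v + (0, 1)) 0 (by rw [e1]; exact k2) (by rw [e2]; exact k1)
      rw [e1, e2] at this
      exact this.symm
  intro v hv
  rw [hall v hv]
  exact ⟨fun _ => h1', fun _ => h1⟩

end Vale.Agent.P167.H975
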