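import Vale.Agent.P167.H975.LkF

/-!
# P167, general `q`, block Q-LAM (LK): the same type, comparable expectations
-/

namespace Vale.Agent.P167.H975

open Finset Vale.Agent.P167.BR
open Vale.Agent.P167.E6 (IsPolygon Encloses dir face)
open Vale.Agent.P167.FK (Bq Good Ex RSW)
open Vale.Agent.P167.H192.Q (SRSW)
open Vale.Agent.P167.H135 (shE)
open Vale.Agent.P167.H871 (Bd)
open Vale.Agent.P167.H601.LG (GeoN Spe SepL)
open Vale.Agent.P167.H167.Q (MxA Bd3 mx_all)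

/-- **Mixing with error at most `ε`** at boxes the ratio of which is at least `K`. -/
theorem mx_ratio {Q : ℝ} (hQ : 1 ≤ Q) (hR : RSW Q) (hS : SRSW Q) {ε : ℝ} (hε : 0 < ε) :
    ∃ K : ℝ, 1 ≤ K ∧ ∀ (D : Finset (ℤ × ℤ)) (η : Cfg) (x : ℤ × ℤ) (r R : ℤ), Bd3 D η x R →
      1 ≤ r → K * r ≤ R → MxA Q D η x r R ε := by
  obtain ⟨α, C, hα, hC, h⟩ := mx_all hQ hR hS
  set δ : ℝ := min (1 / 2) (ε / 6) with hδ
  have hδ0 : 0 < δ := lt_min (by norm_num) (by positivity)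
  set K : ℝ := max 1 ((C / δ) ^ (1 / α)) with hK
  have hK1 : 1 ≤ K := le_max_left _ _
  refine ⟨K, hK1, fun D η x r R hB hr hrR => ?_⟩
  have hr' : (1 : ℝ) ≤ r := by exact_mod_cast hr
  have hR0 : (0 : ℝ) < R := lt_of_lt_of_le (by positivity) hrR
  have hx : 0 ≤ (r : ℝ) / R := div_nonneg (by linarith) hR0.le
  have hxK : (r : ℝ) / R ≤ 1 / K := by
    rw [div_le_div_iff₀ hR0 (by linarith)]
    linarith
  have h1 : C * ((r : ℝ) / R) ^ α ≤ δ := by
    have h2 : ((r : ℝ) / R) ^ α ≤ (1 / K) ^ α := Real.rpow_le_rpow hx hxK hα.le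
    have h3 : C / δ ≤ K ^ α := by
      have h4 : ((C / δ) ^ (1 / α)) ^ α ≤ K ^ α :=
        Real.rpow_le_rpow (by positivity) (le_max_right _ _) hα.le
      rwa [← Real.rpow_mul (by positivity), one_div_mul_cancel hα.ne', Real.rpow_one] at h4
    have h5 : (1 / K) ^ α = 1 / K ^ α := by
      rw [Real.div_rpow (by norm_num) (by linarith), Real.one_rpow]
    rw [h5] at h2
    have hKα : 0 < K ^ α := by positivity
    calc C * ((r : ℝ) / R) ^ α ≤ C * (1 / K ^ α) := mul_le_mul_of_nonneg_left h2 hC.le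
      _ ≤ δ := by
        rw [mul_one_div, div_le_iff₀ hKα]
        rw [div_le_iff₀ hδ0] at h3
        linarith
  have h2 := h D η x r R hB hr (by
    have : (r : ℝ) ≤ R := by nlinarith
    exact_mod_cast this) (h1.trans (min_le_left _ _))
  intro ξ ξ' g g' a b F hF hL
  refine (h2 ξ ξ' g g' a b F hF hL).trans ?_
  have h3 : 6 * (C * ((r : ℝ) / R) ^ α) ≤ ε := by
    have := min_le_right (1 / 2) (ε / 6)
    linarith
  exact mul_le_mul_of_nonneg_right (by linarith) (FKA.Ex_nonneg (by linarith) fun S _ => hF _)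

/-- **Special points of the same type have comparable local expectations.** -/
theorem lk_two {Q : ℝ} (hQ : 1 ≤ Q) (hR : RSW Q) (hSR : SRSW Q) : ∃ K : ℝ, 1 ≤ K ∧
    ∀ {D D' : Finset (ℤ × ℤ)} {r R : ℤ} {η η' : Cfg} {θ β : ℝ} {N N' n₀ n₀' k k' : ℕ}
      {q : ZMod N → ℤ × ℤ} {q' : ZMod N' → ℤ × ℤ} {τ τ' : ℕ → ℤ} {L L' j j' : ℕ},
      GeoN n₀ N q τ → GeoN n₀' N' q' τ' → IsPolygon q → Encloses q D → IsPolygon q' →
      Encloses q' D' → Bd (D : Set (ℤ × ℤ)) N (fun j => q (j : ZMod N)) τ 1 →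
      Bd (D' : Set (ℤ × ℤ)) N' (fun j => q' (j : ZMod N')) τ' 1 →
      SepL L N τ k → SepL L' N' τ' k' → 3 * (R + 1) < n₀ → 3 * (R + 1) < n₀' →
      2 * (R + 1) < L → 2 * (R + 1) < L' → j < N → j' < N' → Spe τ k j → Spe τ' k' j' →
      SameT N k τ j N' k' τ' j' →
      Even ((q' (j' : ZMod N') - q (j : ZMod N)).1 + (q' (j' : ZMod N') - q (j : ZMod N)).2) →
      Real.cos θ ≠ 0 → 1 ≤ r → K * r ≤ R → Bd3 D η (q (j : ZMod N)) R → Good η → Good η' →
      (∀ v ∈ Bq (q (j : ZMod N)) R, v ∉ D →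
        η' (v + (q' (j' : ZMod N') - q (j : ZMod N))) = η v) →
      (∀ ω, 0 ≤ TX (wJ θ β q D k τ) D (q (j : ZMod N)) r ω) →
      Ex Q D η (TX (wJ θ β q D k τ) D (q (j : ZMod N)) r) ≤
          2 * Ex Q D' η' (TX (wJ θ β q' D' k' τ') D' (q' (j' : ZMod N')) r) ∧
        Ex Q D' η' (TX (wJ θ β q' D' k' τ') D' (q' (j' : ZMod N')) r) ≤
          2 * Ex Q D η (TX (wJ θ β q D k τ) D (q (j : ZMod N)) r) := by
  obtain ⟨K, hK, h⟩ := mx_ratio hQ hR hSR (ε := 1 / 2) (by norm_num)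
  refine ⟨K + 1, by linarith, ?_⟩
  intro D D' r R η η' θ β N N' n₀ n₀' k k' q q' τ τ' L L' j j' hG hG' hq hD hq' hD' hu hu' hS hS'
    h3 h3' hL hL' hj hj' hs hs' hT ht hc hr hrR hB hη hη' hout h0
  have hr' : (1 : ℝ) ≤ r := by exact_mod_cast hr
  have h1 : r + 1 ≤ R := by
    have : ((r + 1 : ℤ) : ℝ) ≤ R := by
      push_cast
      nlinarith
    exact_mod_cast this
  have hM := h D η (q (j : ZMod N)) r R hB hr (by nlinarith)
  have key := lk_cmp hG hG' hq hD hq' hD' hu hu' hS hS' (by omega) h3 h3' hL hL' hj hj' hs hs' hT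
    ht hc h1 hQ (by norm_num) hM hη hη' hout h0
  have h2 : 0 ≤ Ex Q D η (TX (wJ θ β q D k τ) D (q (j : ZMod N)) r) :=
    FKA.Ex_nonneg (by linarith) fun S _ => h0 _
  rw [abs_le] at key
  constructor <;> linarith [key.1, key.2]

end Vale.Agent.P167.H975
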