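import Vale.Agent.P167.H975.LkG
import Vale.Agent.P167.H825.Reg.Tr
import Vale.Agent.P167.H167.Q.EqF

/-!
# P167, general `q`, block Q-LAM (LK): data with explicit colours outside

`LKD`: a polygon with separated special points and a regular configuration outside, with explicit
colours near the special points. `lkd_two`: special points of the same type have comparable local
expectations, for all configurations outside with the same marks.
-/

namespace Vale.Agent.P167.H975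

open Finset Vale.Agent.P167.BR
open Vale.Agent.P167.E6 (IsPolygon Encloses dir face)
open Vale.Agent.P167.FK (Bq Good Ex RSW)
open Vale.Agent.P167.FKA (Loc)
open Vale.Agent.P167.H192.Q (SRSW)
open Vale.Agent.P167.H135 (shE)
open Vale.Agent.P167.H871 (Bd)
open Vale.Agent.P167.H718 (Dob)
open Vale.Agent.P167.H601.LG (GeoN Spe SepL)
open Vale.Agent.P167.H167.Q (MxA Bd3 Reg)
open Vale.Agent.P167.H825.Reg (al)

/-- The colours of the outer squares near a special point. -/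
def ccol (N k : ℕ) (q : ZMod N → ℤ × ℤ) (r₀ rk : Fin 4) (j : ℕ) (v : ℤ × ℤ) : Bool :=
  if 0 < k ∧ k < N then
    (if j = k then decide (0 ≤ al rk (q (k : ZMod N)) v)
      else if j = 0 then decide (al r₀ (q ((0 : ℕ) : ZMod N)) v < 0) else decide (k ≤ j))
  else decide (k ≤ j)

theorem ccol_jun {N k : ℕ} {q : ZMod N → ℤ × ℤ} {r₀ rk : Fin 4} {j : ℕ} {v : ℤ × ℤ}
    (h : 0 < k ∧ k < N) (hj : j = k) :
    ccol N k q r₀ rk j v = decide (0 ≤ al rk (q (k : ZMod N)) v) := by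
  unfold ccol
  rw [if_pos h, if_pos hj]

theorem ccol_bas {N k : ℕ} {q : ZMod N → ℤ × ℤ} {r₀ rk : Fin 4} {j : ℕ} {v : ℤ × ℤ}
    (h : 0 < k ∧ k < N) (hj : j = 0) :
    ccol N k q r₀ rk j v = decide (al r₀ (q ((0 : ℕ) : ZMod N)) v < 0) := by
  unfold ccol
  rw [if_pos h, if_neg (show ¬ j = k by omega), if_pos hj]

theorem ccol_col {N k : ℕ} {q : ZMod N → ℤ × ℤ} {r₀ rk : Fin 4} {j : ℕ} {v : ℤ × ℤ}
    (h : ¬ (0 < k ∧ k < N) ∨ (j ≠ k ∧ j ≠ 0)) : ccol N k q r₀ rk j v = decide (k ≤ j) := by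
  unfold ccol
  rcases h with h | ⟨h1, h2⟩
  · rw [if_neg h]
  · rw [if_neg h1, if_neg h2]
    split_ifs <;> rfl

/-- Polygons with separated special points, regular outside configuration with explicit colours. -/
structure LKD (n N : ℕ) (q : ZMod N → ℤ × ℤ) (D : Finset (ℤ × ℤ)) (k : ℕ) (τ : ℕ → ℤ) (L : ℕ)
    (m : ℤ) (η : Cfg) : Prop where
  geo : GeoN n N q τ
  poly : IsPolygon q
  enc : Encloses q D
  bd : Bd (D : Set (ℤ × ℤ)) N (fun j => q (j : ZMod N)) τ 1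
  sep : SepL L N τ k
  kle : k ≤ N
  dob : Dob η D q k
  reg : Reg m D η
  col : ∀ j < N, Spe τ k j → ∃ r₀ rk : Fin 4, dir r₀ = Top.vec (τ 0) ∧ dir rk = Top.vec (τ k) ∧
    ∀ v ∈ Bq (q (j : ZMod N)) m, v ∉ D → η v = ccol N k q r₀ rk j v

theorem al_add (r : Fin 4) (z v t : ℤ × ℤ) : al r (z + t) (v + t) = al r z v := by
  unfold al
  fin_cases r <;> simp only [Prod.fst_add, Prod.snd_add, Fin.zero_eta, Fin.mk_one, Fin.reduceFinMk] <;>
    ring

theorem dir_inj' {r s : Fin 4} (h : dir r = dir s) : r = s :=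
  E2.add_dir_inj (v := 0) (by rw [h])

variable {D D' : Finset (ℤ × ℤ)} {r R m m' : ℤ} {η η' ω ω' : Cfg} {Q ε θ β : ℝ}
  {N N' n₀ n₀' k k' : ℕ} {q : ZMod N → ℤ × ℤ} {q' : ZMod N' → ℤ × ℤ} {τ τ' : ℕ → ℤ}
  {L L' j j' : ℕ}

/-- **The outer squares agree.** -/
theorem hout_lkd (h : LKD n₀ N q D k τ L m η) (h' : LKD n₀' N' q' D' k' τ' L' m' η')
    (hj : j < N) (hj' : j' < N') (hs : Spe τ k j) (hs' : Spe τ' k' j')
    (hT : SameT N k τ j N' k' τ' j') (hR : R ≤ m) (hR' : R ≤ m')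
    (hA : Agr D D' (q (j : ZMod N)) (q' (j' : ZMod N') - q (j : ZMod N)) R) :
    ∀ v ∈ Bq (q (j : ZMod N)) R, v ∉ D →
      η' (v + (q' (j' : ZMod N') - q (j : ZMod N))) = η v := by
  intro v hv hvD
  set t := q' (j' : ZMod N') - q (j : ZMod N) with ht
  have hc : q (j : ZMod N) + t = q' (j' : ZMod N') := by rw [ht]; abel
  obtain ⟨r₀, rk, a1, a2, a3⟩ := h.col j hj hs
  obtain ⟨r₀', rk', b1, b2, b3⟩ := h'.col j' hj' hs'
  have hbox : ∀ {z : ℤ × ℤ} {m : ℤ}, R ≤ m → ∀ {v}, v ∈ Bq z R → v ∈ Bq z m := by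
    intro z m hm v hv
    rw [lkBq] at *
    omega
  have hv' : v + t ∈ Bq (q' (j' : ZMod N')) R := by
    rw [← hc]
    exact lkBq_add.2 hv
  have hvD' : v + t ∉ D' := fun hc => hvD ((hA v hv).2 hc)
  rw [a3 v (hbox hR hv) hvD, b3 _ (hbox hR' hv') hvD']
  have e1 := hT.lt
  have e3 := hT.out
  rcases Nat.eq_zero_or_pos j with hj0 | hj0
  · have hj0' : j' = 0 := hT.base.1 hj0
    have e2 := hT.all hj0
    rw [hj0, hj0'] at e1 e3
    by_cases hk : 0 < k ∧ k < N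
    · have hk' : 0 < k' ∧ k' < N' := ⟨e1.1 hk.1, e2.1 hk.2⟩
      rw [ccol_bas hk hj0, ccol_bas hk' hj0']
      have e4 : r₀' = r₀ := dir_inj' (by rw [a1, b1, e3])
      have e5 : q' ((0 : ℕ) : ZMod N') = q ((0 : ℕ) : ZMod N) + t := by
        have := hc
        rw [hj0, hj0'] at this
        exact this.symm
      rw [e4, e5, al_add]
    · have hk' : ¬ (0 < k' ∧ k' < N') := fun hh => hk ⟨e1.2 hh.1, e2.2 hh.2⟩
      rw [ccol_col (Or.inl hk), ccol_col (Or.inl hk'), hj0, hj0']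
      by_cases h0 : 0 < k
      · rw [decide_eq_false (show ¬ k ≤ 0 by omega),
          decide_eq_false (show ¬ k' ≤ 0 by have := e1.1 h0; omega)]
      · have h0' : ¬ 0 < k' := fun hh => h0 (e1.2 hh)
        rw [decide_eq_true (show k ≤ 0 by omega), decide_eq_true (show k' ≤ 0 by omega)]
  · have hj0' : 0 < j' := by
      rcases Nat.eq_zero_or_pos j' with h5 | h5
      · have := hT.base.2 h5
        omega
      · exact h5
    have e2 := hT.jun hj0
    by_cases hjk : j = k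
    · have hjk' : j' = k' := e2.1 hjk
      rw [ccol_jun ⟨by omega, by omega⟩ hjk, ccol_jun ⟨by omega, by omega⟩ hjk']
      rw [hjk, hjk'] at e3
      have e4 : rk' = rk := dir_inj' (by rw [a2, b2, e3])
      have e5 : q' (k' : ZMod N') = q (k : ZMod N) + t := by
        have := hc
        rw [hjk, hjk'] at this
        exact this.symm
      rw [e4, e5, al_add]
    · have hjk' : j' ≠ k' := fun hh => hjk (e2.2 hh)
      rw [ccol_col (Or.inr ⟨hjk, by omega⟩), ccol_col (Or.inr ⟨hjk', by omega⟩)]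
      by_cases h5 : j < k
      · rw [decide_eq_false (show ¬ k ≤ j by omega),
          decide_eq_false (show ¬ k' ≤ j' by have := e1.1 h5; omega)]
      · have h6 : ¬ j' < k' := fun hh => h5 (e1.2 hh)
        rw [decide_eq_true (show k ≤ j by omega), decide_eq_true (show k' ≤ j' by omega)]

theorem TX_locD (w : Finset Ed → ℝ) (D : Finset (ℤ × ℤ)) (c : ℤ × ℤ) (r : ℤ) :
    Loc D (TX w D c r) := fun ω ω' h =>
  TX_loc w D c r ω ω' fun v hv => h v (mem_inter.1 hv).2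

/-- **Special points of the same type have comparable local expectations.** -/
theorem lkd_two {Q : ℝ} (hQ : 1 ≤ Q) (hR : RSW Q) (hSR : SRSW Q) : ∃ K : ℝ, 1 ≤ K ∧
    ∀ {D D' : Finset (ℤ × ℤ)} {r R : ℤ} {θ β : ℝ} {N N' n₀ n₀' k k' : ℕ}
      {q : ZMod N → ℤ × ℤ} {q' : ZMod N' → ℤ × ℤ} {τ τ' : ℕ → ℤ} {L L' j j' : ℕ} {m m' : ℤ}
      {η₀ η₀' : Cfg},
      LKD n₀ N q D k τ L m η₀ → LKD n₀' N' q' D' k' τ' L' m' η₀' → R ≤ m → R ≤ m' →
      3 * (R + 1) < n₀ → 3 * (R + 1) < n₀' → 2 * (R + 1) < L → 2 * (R + 1) < L' → j < N →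
      j' < N' → Spe τ k j → Spe τ' k' j' → SameT N k τ j N' k' τ' j' →
      Even ((q' (j' : ZMod N') - q (j : ZMod N)).1 + (q' (j' : ZMod N') - q (j : ZMod N)).2) →
      Real.cos θ ≠ 0 → 1 ≤ r → K * r ≤ R →
      (∀ ω, 0 ≤ TX (wJ θ β q D k τ) D (q (j : ZMod N)) r ω) →
      ∀ {η η' : Cfg}, Dob η D q k → Dob η' D' q' k' →
      Ex Q D η (TX (wJ θ β q D k τ) D (q (j : ZMod N)) r) ≤
          2 * Ex Q D' η' (TX (wJ θ β q' D' k' τ') D' (q' (j' : ZMod N')) r) ∧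
        Ex Q D' η' (TX (wJ θ β q' D' k' τ') D' (q' (j' : ZMod N')) r) ≤
          2 * Ex Q D η (TX (wJ θ β q D k τ) D (q (j : ZMod N)) r) := by
  obtain ⟨K, hK, h⟩ := lk_two hQ hR hSR
  have hQ0 : 0 < Q := by linarith
  refine ⟨K + 1, by linarith, ?_⟩
  intro D D' r R θ β N N' n₀ n₀' k k' q q' τ τ' L L' j j' m m' η₀ η₀' hU hU' hRm hRm'
    h3 h3' hL hL' hj hj' hs hs' hT ht hc hr hrR h0 η η' hη hη'
  have hr' : (1 : ℝ) ≤ r := by exact_mod_cast hr
  have hR1 : 1 ≤ R := by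
    have : ((1 : ℤ) : ℝ) ≤ R := by
      push_cast
      nlinarith
    exact_mod_cast this
  have hB := hU.reg.bd (q (j : ZMod N)) (H718.q_mem_sites hU.poly hU.enc _) R hR1 hRm
  obtain ⟨hA, -⟩ := sameT_loc hU.geo hU'.geo hU.poly hU.enc hU'.poly hU'.enc hU.bd hU'.bd hU.sep
    hU'.sep hR1 h3 h3' hL hL' hj hj' hs hs' hT
  have hout := hout_lkd hU hU' hj hj' hs hs' hT hRm hRm' hA
  have key := h hU.geo hU'.geo hU.poly hU.enc hU'.poly hU'.enc hU.bd hU'.bd hU.sep hU'.sep h3 h3'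
    hL hL' hj hj' hs hs' hT ht hc hr (by nlinarith) hB hU.reg.good hU'.reg.good hout h0
  rw [H167.Q.ex_dobE hU.poly hU.enc hU.kle hη hU.dob hQ0 (TX_locD _ _ _ _),
    H167.Q.ex_dobE hU'.poly hU'.enc hU'.kle hη' hU'.dob hQ0 (TX_locD _ _ _ _)]
  exact key

end Vale.Agent.P167.H975
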