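import Vale.Agent.P167.H975.LkJ

/-!
# P167, general `q`, block Q-LAM (LK): the special points of the unit polygons
-/

namespace Vale.Agent.P167.H975

open Finset Filter Topology Vale.Agent.P167.BR
open Vale.Agent.P167.E6 (IsPolygon Encloses dir face)
open Vale.Agent.P167.FK (Bq Good Ex RSW eta0 eta1)
open Vale.Agent.P167.H871 (Bd vec_fin)
open Vale.Agent.P167.H718 (Dob poly_add encl_add bd_add)
open Vale.Agent.P167.H601.LG (GeoN Spe SepL Typ exists_low_loc)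
open Vale.Agent.P167.H825 (enl pdir)
open Vale.Agent.P167.H825.Q (Bc)
open Vale.Agent.P167.Enl
open Vale.Agent.P167.H718.Lam

/-- `y < x * n` for large `n`. -/
theorem ev_lt {x : ℝ} (y : ℝ) (hx : 0 < x) : ∀ᶠ n : ℕ in atTop, y < x * n :=
  (tendsto_natCast_atTop_atTop.const_mul_atTop hx).eventually_gt_atTop y

/-- **The data of a unit polygon.** -/
theorem lkd_uni {U : Uni} (hU : U.Ok) : ∃ δ : ℝ, 0 < δ ∧ δ ≤ 1 / 4 ∧ ∀ᶠ n : ℕ in atTop,
    ∀ (a : ℤ × ℤ) (τ : ℕ → ℤ) (η : Cfg), U.St n a τ η →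
      ∃ η₀, LKD n (U.l * n) (U.qa n a) (U.Da n a) (U.k n) τ ⌊δ * n⌋₊ ⌊δ / 200 * n⌋ η₀ := by
  obtain ⟨l, p, S, bc, tp⟩ := U
  obtain ⟨hp, hD, hB⟩ := hU
  have fw : ∀ bc : Bc, (bc = .free ∨ bc = .wired) → tp = 0 → ∃ δ : ℝ, 0 < δ ∧ δ ≤ 1 / 4 ∧
      ∀ᶠ n : ℕ in atTop, ∀ (a : ℤ × ℤ) (τ : ℕ → ℤ) (η : Cfg), (⟨l, p, S, bc, tp⟩ : Uni).St n a τ η →
      ∃ η₀, LKD n (l * n) ((⟨l, p, S, bc, tp⟩ : Uni).qa n a) ((⟨l, p, S, bc, tp⟩ : Uni).Da n a)
        ((⟨l, p, S, bc, tp⟩ : Uni).k n) τ ⌊δ * n⌋₊ ⌊δ / 200 * n⌋ η₀ := by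
    intro bc hbc htp
    refine ⟨1 / 4, by norm_num, le_rfl, ?_⟩
    filter_upwards [eventually_gt_atTop 3] with n hn a τ η hSt
    have hn' : (3 : ℝ) < n := by exact_mod_cast hn
    have ht : (⟨l, p, S, bc, tp⟩ : Uni).t n = 0 := by
      show ⌊tp * (n : ℝ)⌋₊ = 0
      rw [htp, zero_mul, Nat.floor_zero]
    have h1 : ⌊(1 / 4 : ℝ) * n⌋₊ ≤ n := by
      have : (⌊(1 / 4 : ℝ) * n⌋₊ : ℝ) ≤ 1 / 4 * n := Nat.floor_le (by positivity)
      have h2 : (⌊(1 / 4 : ℝ) * n⌋₊ : ℝ) ≤ n := by linarith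
      exact_mod_cast h2
    have h2 : 2 * ⌊(1 / 4 : ℝ) / 200 * n⌋ + 1 ≤ (n : ℤ) := by
      have h3 := Int.floor_le ((1 / 4 : ℝ) / 200 * n)
      have h4 : ((2 * ⌊(1 / 4 : ℝ) / 200 * n⌋ + 1 : ℤ) : ℝ) ≤ ((n : ℤ) : ℝ) := by
        push_cast
        linarith
      exact_mod_cast h4
    have hk : (⟨l, p, S, bc, tp⟩ : Uni).k n = 0 ∨ (⟨l, p, S, bc, tp⟩ : Uni).k n = l * n := by
      rcases hbc with rfl | rfl
      · exact Or.inr rfl
      · exact Or.inl rfl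
    exact lkd_fw (a := a) hp hD (by omega) (Or.inl ht) h1 h2 hk hSt.bd
  cases bc with
  | free => exact fw _ (Or.inl rfl) hB.1
  | wired => exact fw _ (Or.inr rfl) hB.1
  | dob ia ta =>
    obtain ⟨h0, h1, b1, b2, b3, b4, -, -⟩ := hB
    simp only at h0 h1 b1 b2 b3 b4
    obtain ⟨δ, hδ, hδ', d1, d2, d3, d4⟩ : ∃ δ : ℝ, 0 < δ ∧ δ ≤ 1 / 4 ∧ 2 * δ ≤ tp ∧ 2 * δ ≤ 1 - tp ∧
        2 * δ ≤ ta ∧ 2 * δ ≤ 1 - ta := by
      have hm : 0 < min (min tp (1 - tp)) (min ta (1 - ta)) := by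
        rw [lt_min_iff, lt_min_iff, lt_min_iff]
        exact ⟨⟨h0, by linarith⟩, b3, by linarith⟩
      have e1 := (min_le_left (min tp (1 - tp)) (min ta (1 - ta))).trans (min_le_left _ _)
      have e2 := (min_le_left (min tp (1 - tp)) (min ta (1 - ta))).trans (min_le_right _ _)
      have e3 := (min_le_right (min tp (1 - tp)) (min ta (1 - ta))).trans (min_le_left _ _)
      have e4 := (min_le_right (min tp (1 - tp)) (min ta (1 - ta))).trans (min_le_right _ _)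
      refine ⟨min (min tp (1 - tp)) (min ta (1 - ta)) / 2, ?_, ?_, ?_, ?_, ?_, ?_⟩ <;> linarith
    refine ⟨δ, hδ, hδ', ?_⟩
    filter_upwards [ev_lt 1000 hδ, ev_lt 1000 (show 0 < δ / 200 by positivity)] with n hn hn' a τ η
      hSt
    have hn0 : 0 < n := by
      rcases Nat.eq_zero_or_pos n with h | h
      · rw [h] at hn
        norm_num at hn
      · exact h
    set t := ⌊tp * (n : ℝ)⌋₊ with ht
    set σ := ⌊ta * (n : ℝ)⌋₊ with hσ
    set L : ℕ := ⌊δ * (n : ℝ)⌋₊ with hLd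
    have t1 : (t : ℝ) ≤ tp * n := Nat.floor_le (by positivity)
    have t2 : tp * n < t + 1 := Nat.lt_floor_add_one _
    have s1 : (σ : ℝ) ≤ ta * n := Nat.floor_le (by positivity)
    have s2 : ta * n < σ + 1 := Nat.lt_floor_add_one _
    have L1 : (L : ℝ) ≤ δ * n := Nat.floor_le (by positivity)
    have L2 : δ * n < L + 1 := Nat.lt_floor_add_one _
    have hnr : (0 : ℝ) < n := by exact_mod_cast hn0
    have g1 : L ≤ t := by
      have : (L : ℝ) ≤ (t : ℝ) := by nlinarith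
      exact_mod_cast this
    have g2 : t + L ≤ n := by
      have : ((t + L : ℕ) : ℝ) ≤ (n : ℝ) := by
        push_cast
        nlinarith
      exact_mod_cast this
    have g3 : L ≤ σ := by
      have : (L : ℝ) ≤ (σ : ℝ) := by nlinarith
      exact_mod_cast this
    have g4 : σ + L ≤ n := by
      have : ((σ + L : ℕ) : ℝ) ≤ (n : ℝ) := by
        push_cast
        nlinarith
      exact_mod_cast this
    set m₀ : ℤ := ⌊δ / 200 * (n : ℝ)⌋ with hm₀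
    have m1 : (m₀ : ℝ) ≤ δ / 200 * n := Int.floor_le _
    have m2 : δ / 200 * n < m₀ + 1 := Int.lt_floor_add_one _
    have g5 : 1 ≤ m₀ := by
      have : ((1 : ℤ) : ℝ) ≤ (m₀ : ℝ) := by
        push_cast
        linarith
      exact_mod_cast this
    have g6 : 4 * (9 * (2 * m₀ + 3) + (2 * m₀ + 3)) < L := by
      have : ((4 * (9 * (2 * m₀ + 3) + (2 * m₀ + 3)) : ℤ) : ℝ) < ((L : ℤ) : ℝ) := by
        push_cast
        linarith
      exact_mod_cast this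
    have hka : Bc.ka l n t (.dob ia ta) = ia * n + σ - t := by
      show kOf l n t ia σ = _
      unfold kOf
      have e1 : 1 * n ≤ ia * n := Nat.mul_le_mul_right n b1
      rw [one_mul] at e1
      rw [if_pos (by omega)]
    obtain ⟨η₀, h⟩ := lkd_dob (a := a) hp hD b1 b2 g1 g2 g3 g4 g5 g6 hSt.bd
    refine ⟨η₀, ?_⟩
    rw [← hka] at h
    exact h

end Vale.Agent.P167.H975
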