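import Vale.Agent.P167.H975.LkK

/-!
# P167, general `q`, block Q-LAM (LK): indices and types of the special points of the unit polygons
-/

namespace Vale.Agent.P167.H975

open Finset Filter Topology Vale.Agent.P167.BR
open Vale.Agent.P167.E6 (IsPolygon Encloses dir face)
open Vale.Agent.P167.FK (Bq Good Ex RSW eta0 eta1)
open Vale.Agent.P167.H871 (Bd vec_fin)
open Vale.Agent.P167.H718 (Dob poly_add encl_add bd_add)
open Vale.Agent.P167.H601.LG (GeoN Spe SepL Typ exists_low_loc)
open Vale.Agent.P167.H825 (enl pdir)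
open Vale.Agent.P167.H825.Q (Bc)
open Vale.Agent.P167.Enl
open Vale.Agent.P167.H718.Lam

/-- The position of the index `j` of a special point in the unit polygon: `j + t = c * n`. -/
theorem kOf_zero {l n t i : ℕ} (hi : i < l) (ht : t < n) : ∃ c : ℕ, kOf l n t i 0 + t = c * n ∧
    kOf l n t i 0 < l * n ∧ ((c = i ∧ t ≤ i * n) ∨ (c = l ∧ i = 0 ∧ 0 < t)) := by
  have h2 : (i + 1) * n ≤ l * n := Nat.mul_le_mul_right n hi
  rw [add_mul, one_mul] at h2
  unfold kOf
  split_ifs with h
  · exact ⟨i, by omega, by omega, Or.inl ⟨rfl, by omega⟩⟩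
  · have hi0 : i = 0 := by
      by_contra hne
      have h3 : 1 * n ≤ i * n := Nat.mul_le_mul_right n (by omega)
      rw [one_mul] at h3
      omega
    subst hi0
    refine ⟨l, by omega, by omega, Or.inr ⟨rfl, rfl, by omega⟩⟩

/-- A special point of the kind `kd` at the index `j`. -/
structure SpI (l n : ℕ) (q : ZMod (l * n) → ℤ × ℤ) (k : ℕ) (τ : ℕ → ℤ) (x : ℤ × ℤ) (kd : Uni.Kind)
    (j : ℕ) : Prop where
  lt : j < l * n
  sp : Spe τ k j
  pt : q (j : ZMod (l * n)) = x
  out : Top.vec (τ j) = dir kd.dout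
  inn : Top.vec (τ (j + l * n - 1)) = dir kd.din
  fr : j < k ↔ kd.fr = true
  bs : j = 0 ↔ kd.bs = true
  jn : 0 < j → j ≠ k
  all : j = 0 → (k < l * n ↔ (kd.fr = false ∨ kd.din = kd.dout))

theorem SpI.same {l l' n n' : ℕ} {q : ZMod (l * n) → ℤ × ℤ} {q' : ZMod (l' * n') → ℤ × ℤ} {k k' : ℕ}
    {τ τ' : ℕ → ℤ} {x x' : ℤ × ℤ} {kd : Uni.Kind} {j j' : ℕ} (h : SpI l n q k τ x kd j)
    (h' : SpI l' n' q' k' τ' x' kd j') : SameT (l * n) k τ j (l' * n') k' τ' j' where
  base := h.bs.trans h'.bs.symm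
  lt := h.fr.trans h'.fr.symm
  jun h0 := by
    have h1 : 0 < j' := by
      rcases Nat.eq_zero_or_pos j' with h2 | h2
      · have := (h.bs.trans h'.bs.symm).2 h2
        omega
      · exact h2
    exact ⟨fun h2 => absurd h2 (h.jn h0), fun h2 => absurd h2 (h'.jn h1)⟩
  all h0 := (h.all h0).trans (h'.all ((h.bs.trans h'.bs.symm).1 h0)).symm
  out := h.out.trans h'.out.symm
  inn := h.inn.trans h'.inn.symm

section

variable {l : ℕ} {p : ZMod l → ℤ × ℤ} {n t k : ℕ} {a : ℤ × ℤ} {τ : ℕ → ℤ} {D : Set (ℤ × ℤ)}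

/-- **Corners.** -/
theorem spI_cor (hp : IsPolygon p) (ht : t < n)
    (hu : Bd D (l * n) (fun k => qN p n t (k : ZMod (l * n)) + a) τ 1) {i : ℕ} (hi : i < l)
    (hc : pdir p (i + l - 1) ≠ pdir p i) {fr bs : Bool}
    (hfr : kOf l n t i 0 < k ↔ fr = true) (hbs : kOf l n t i 0 = 0 ↔ bs = true)
    (hjn : 0 < kOf l n t i 0 → kOf l n t i 0 ≠ k)
    (hall : kOf l n t i 0 = 0 → (k < l * n ↔ fr = false)) :
    SpI l n (fun i => qN p n t i + a) k τ ((n : ℤ) • p i + a)
      ⟨pdir p (i + l - 1), pdir p i, fr, bs⟩ (kOf l n t i 0) := by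
  have hl : NeZero l := ⟨by have := hp.1; omega⟩
  have hn : 0 < n := by omega
  have hl2 := hp.1
  have hs := qa_eq (a := a) hp hn t
  have hv := vec_dir (q := fun i => qN p n t i + a) hn hp hs hu
  obtain ⟨c, c1, c2, c3⟩ := kOf_zero hi ht
  set j := kOf l n t i 0 with hj
  have hpc : p (c : ZMod l) = p (i : ZMod l) ∧ pdir p c = pdir p i ∧
      pdir p (c + l - 1) = pdir p (i + l - 1) := by
    rcases c3 with ⟨rfl, -⟩ | ⟨rfl, rfl, -⟩
    · exact ⟨rfl, rfl, rfl⟩
    · refine ⟨by rw [ZMod.natCast_self, Nat.cast_zero], ?_, ?_⟩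
      · have := pdir_add (p := p) 0
        rwa [zero_add] at this
      · have := pdir_add (p := p) (c - 1)
        rw [show c - 1 + c = c + c - 1 by omega] at this
        rw [this]
        congr 1
        omega
  have hN : l * n = (l - 1) * n + n := by
    have : (l - 1 + 1) * n = (l - 1) * n + n := by ring
    rw [← this]
    congr 1
    omega
  have e1 : (j + t) / n = c := by
    rw [c1]
    exact Nat.mul_div_cancel _ hn
  have e2 : (j + l * n - 1 + t) / n = c + l - 1 := by
    have h1 : j + l * n - 1 + t = n - 1 + (c + l - 1) * n := by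
      have h2 : (c + l - 1) * n = c * n + (l - 1) * n := by
        rw [← add_mul]
        congr 1
        omega
      omega
    rw [h1, Nat.add_mul_div_right _ _ hn, Nat.div_eq_of_lt (by omega), zero_add]
  have v1 : Top.vec (τ j) = dir (pdir p i) := by rw [hv, e1, hpc.2.1]
  have v2 : Top.vec (τ (j + l * n - 1)) = dir (pdir p (i + l - 1)) := by rw [hv, e2, hpc.2.2]
  refine ⟨c2, ?_, ?_, v1, v2, hfr, hbs, hjn, fun h0 => ?_⟩
  · rcases Nat.eq_zero_or_pos j with h0 | h0
    · exact Or.inl h0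
    · refine Or.inr (Or.inr ⟨h0, fun he => hc ?_⟩)
      have h1 := hu.per (j - 1)
      rw [show j - 1 + l * n = j + l * n - 1 by omega, mul_one] at h1
      rw [h1, vec4, ← he, v1] at v2
      exact (dir_inj' v2).symm
  · refine (hs j).trans ?_
    rw [c1]
    have := PN_lin (p := p) hn (i := c) (j := 0) hn
    rw [add_zero, Nat.cast_zero, zero_smul, add_zero] at this
    rw [this, hpc.1]
  · rw [hall h0]
    simp [hc]

/-- **Base of a Dobrushin polygon.** -/
theorem spI_bas (hp : IsPolygon p) (ht : t < n) (ht0 : 0 < t)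
    (hu : Bd D (l * n) (fun k => qN p n t (k : ZMod (l * n)) + a) τ 1)
    (hd : pdir p 0 = 0) (hk0 : 0 < k) (hkN : k < l * n) :
    SpI l n (fun i => qN p n t i + a) k τ (qN p n t 0 + a) ⟨0, 0, true, true⟩ 0 := by
  have hl : NeZero l := ⟨by have := hp.1; omega⟩
  have hn : 0 < n := by omega
  have hs := qa_eq (a := a) hp hn t
  have hv := vec_dir (q := fun i => qN p n t i + a) hn hp hs hu
  have hpl : pdir p l = 0 := by
    have := pdir_add (p := p) 0
    rw [zero_add] at this
    rw [this, hd]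
  have hN : 0 < l * n := by omega
  refine ⟨hN, Or.inl rfl, ?_, ?_, ?_, ?_, ?_, ?_, ?_⟩
  · show qN p n t ((0 : ℕ) : ZMod (l * n)) + a = _
    rw [Nat.cast_zero]
  · rw [hv, zero_add, Nat.div_eq_of_lt ht, hd]
  · have h1 : (0 + l * n - 1 + t) / n = l := by
      have h2 : 0 + l * n - 1 + t = t - 1 + l * n := by omega
      rw [h2, Nat.add_mul_div_right _ _ hn, Nat.div_eq_of_lt (by omega), zero_add]
    rw [hv, h1, hpl]
  · simp [hk0]
  · simp
  · intro h
    omega
  · intro _
    simp [hkN]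

end

end Vale.Agent.P167.H975
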