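import Vale.Agent.P167.H975.LkL

/-!
# P167, general `q`, block Q-LAM (LK): `LK`
-/

namespace Vale.Agent.P167.H975

open Finset Filter Topology Vale.Agent.P167.BR
open Vale.Agent.P167.E6 (IsPolygon Encloses dir face)
open Vale.Agent.P167.FK (Bq Good Ex RSW eta0 eta1)
open Vale.Agent.P167.H192.Q (SRSW)
open Vale.Agent.P167.H871 (Bd vec_fin)
open Vale.Agent.P167.H718 (Dob poly_add encl_add bd_add)
open Vale.Agent.P167.H601.LG (GeoN Spe SepL Typ exists_low_loc)
open Vale.Agent.P167.H825 (enl pdir)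
open Vale.Agent.P167.H825.Q (Bc)
open Vale.Agent.P167.Enl
open Vale.Agent.P167.H718.Lam

/-- Large `n` for the Dobrushin conditions. -/
theorem ev_dob {tp ta : ℝ} (h0 : 0 < tp) (h1 : tp < 1) (b3 : 0 < ta) (b4 : ta < 1) :
    ∀ᶠ n : ℕ in atTop, 0 < n ∧ 0 < ⌊tp * (n : ℝ)⌋₊ ∧ ⌊tp * (n : ℝ)⌋₊ < n ∧ 0 < ⌊ta * (n : ℝ)⌋₊ ∧
      ⌊ta * (n : ℝ)⌋₊ < n := by
  filter_upwards [ev_lt 1 h0, ev_lt 1 b3] with n hn hn'
  have hn0 : 0 < n := by
    rcases Nat.eq_zero_or_pos n with h | h
    · rw [h] at hn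
      norm_num at hn
    · exact h
  have hnr : (0 : ℝ) < n := by exact_mod_cast hn0
  refine ⟨hn0, Nat.floor_pos.2 hn.le, ?_, Nat.floor_pos.2 hn'.le, ?_⟩
  · rw [Nat.floor_lt (by positivity)]
    nlinarith
  · rw [Nat.floor_lt (by positivity)]
    nlinarith

/-- **The special points of a unit polygon.** -/
theorem spI_uni {U : Uni} (hU : U.Ok) : ∀ᶠ n : ℕ in atTop,
    ∀ (a : ℤ × ℤ) (τ : ℕ → ℤ) (η : Cfg), U.St n a τ η → ∀ o ∈ U.sp,
      ∃ j, SpI U.l n (U.qa n a) (U.k n) τ (U.pt n a o) (U.kind o) j := by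
  classical
  obtain ⟨l, p, S, bc, tp⟩ := U
  obtain ⟨hp, hD, hB⟩ := hU
  have hl2 : 2 < l := hp.1
  have hmem : ∀ {i : ℕ}, some i ∈ (⟨l, p, S, bc, tp⟩ : Uni).sp →
      i < l ∧ pdir p (i + l - 1) ≠ pdir p i := by
    intro i hi
    unfold Uni.sp at hi
    rw [mem_union] at hi
    rcases hi with hi | hi
    · rw [mem_image] at hi
      obtain ⟨i', h1, h2⟩ := hi
      rw [mem_filter, mem_range] at h1
      rw [← Option.some_injective _ h2]
      exact h1
    · split_ifs at hi
      · rw [mem_singleton] at hi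
        cases hi
      · exact absurd hi (notMem_empty _)
  cases bc with
  | free =>
    have htp : tp = 0 := hB.1
    filter_upwards [eventually_gt_atTop 0] with n hn a τ η hSt o ho
    have ht : (⟨l, p, S, .free, tp⟩ : Uni).t n = 0 := by
      show ⌊tp * (n : ℝ)⌋₊ = 0
      rw [htp, zero_mul, Nat.floor_zero]
    cases o with
    | none =>
      exfalso
      unfold Uni.sp at ho
      simp [Uni.IsDob] at ho
    | some i =>
      obtain ⟨h1, h2⟩ := hmem ho
      have hk : (⟨l, p, S, .free, tp⟩ : Uni).k n = l * n := rfl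
      have hN : 0 < l * n := Nat.mul_pos (by omega) hn
      obtain ⟨c, c1, c2, c3⟩ := kOf_zero (t := 0) h1 hn
      have hj : kOf l n 0 i 0 = i * n := by
        unfold kOf
        simp
      have hb : kOf l n 0 i 0 = 0 ↔ decide (i = 0 ∧ ¬ (⟨l, p, S, .free, tp⟩ : Uni).IsDob) = true := by
        rw [hj, decide_eq_true_iff]
        simp [Uni.IsDob]
        omega
      refine ⟨_, spI_cor (t := (⟨l, p, S, .free, tp⟩ : Uni).t n) hp (by rw [ht]; exact hn)
        (bd_add hSt.bd a) h1 h2 ?_ ?_ ?_ ?_⟩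
      · rw [ht, hk]
        simp [Uni.onFr, c2]
      · rw [ht]
        exact hb
      · rw [ht, hk]
        exact fun _ => c2.ne
      · rw [ht, hk]
        simp [Uni.onFr]
  | wired =>
    have htp : tp = 0 := hB.1
    filter_upwards [eventually_gt_atTop 0] with n hn a τ η hSt o ho
    have ht : (⟨l, p, S, .wired, tp⟩ : Uni).t n = 0 := by
      show ⌊tp * (n : ℝ)⌋₊ = 0
      rw [htp, zero_mul, Nat.floor_zero]
    cases o with
    | none =>
      exfalso
      unfold Uni.sp at ho
      simp [Uni.IsDob] at ho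
    | some i =>
      obtain ⟨h1, h2⟩ := hmem ho
      have hk : (⟨l, p, S, .wired, tp⟩ : Uni).k n = 0 := rfl
      have hN : 0 < l * n := Nat.mul_pos (by omega) hn
      obtain ⟨c, c1, c2, c3⟩ := kOf_zero (t := 0) h1 hn
      have hj : kOf l n 0 i 0 = i * n := by
        unfold kOf
        simp
      have hb : kOf l n 0 i 0 = 0 ↔ decide (i = 0 ∧ ¬ (⟨l, p, S, .wired, tp⟩ : Uni).IsDob) = true := by
        rw [hj, decide_eq_true_iff]
        simp [Uni.IsDob]
        omega
      refine ⟨_, spI_cor (t := (⟨l, p, S, .wired, tp⟩ : Uni).t n) hp (by rw [ht]; exact hn)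
        (bd_add hSt.bd a) h1 h2 ?_ ?_ ?_ ?_⟩
      · rw [hk]
        simp [Uni.onFr]
      · rw [ht]
        exact hb
      · rw [hk]
        omega
      · rw [hk]
        simp only [Uni.onFr, iff_true]
        intro _
        exact hN
  | dob ia ta =>
    obtain ⟨h0, h1, b1, b2, b3, b4, b5, b6⟩ := hB
    simp only at h0 h1 b1 b2 b3 b4 b5 b6
    filter_upwards [ev_dob h0 h1 b3 b4] with n hn a τ η hSt o ho
    obtain ⟨hn, t0, t1, s0, s1⟩ := hn
    set t := ⌊tp * (n : ℝ)⌋₊ with ht
    set σ := ⌊ta * (n : ℝ)⌋₊ with hσ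
    have e1 : 1 * n ≤ ia * n := Nat.mul_le_mul_right n b1
    have e2 : (ia + 1) * n ≤ l * n := Nat.mul_le_mul_right n b2
    rw [one_mul] at e1
    rw [add_mul, one_mul] at e2
    have hk : (⟨l, p, S, .dob ia ta, tp⟩ : Uni).k n = ia * n + σ - t := by
      show kOf l n t ia σ = _
      unfold kOf
      rw [if_pos (by omega)]
    cases o with
    | none =>
      refine ⟨0, ?_⟩
      have hlt : 0 < ia * n + σ - t ∧ ia * n + σ - t < l * n := by omega
      have h := spI_bas (k := (⟨l, p, S, .dob ia ta, tp⟩ : Uni).k n) hp t1 t0 (bd_add hSt.bd a) b5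
        (by rw [hk]; exact hlt.1) (by rw [hk]; exact hlt.2)
      exact h
    | some i =>
      obtain ⟨g1, g2⟩ := hmem ho
      obtain ⟨c, c1, c2, c3⟩ := kOf_zero (t := t) g1 t1
      -- the numbers
      have key : (kOf l n t i 0 < ia * n + σ - t ↔ (1 ≤ i ∧ i ≤ ia)) ∧ kOf l n t i 0 ≠ 0 ∧
          kOf l n t i 0 ≠ ia * n + σ - t := by
        rcases c3 with ⟨rfl, h3⟩ | ⟨rfl, rfl, h3⟩
        · have hc0 : 1 ≤ c := by
            rcases Nat.eq_zero_or_pos c with h5 | h5
            · rw [h5, zero_mul] at h3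
              omega
            · exact h5
          have e4 : 1 * n ≤ c * n := Nat.mul_le_mul_right n hc0
          rw [one_mul] at e4
          rcases lt_trichotomy c ia with h5 | h5 | h5
          · have e3 : (c + 1) * n ≤ ia * n := Nat.mul_le_mul_right n h5
            rw [add_mul, one_mul] at e3
            omega
          · rw [h5] at c1 e4 ⊢
            omega
          · have e3 : (ia + 1) * n ≤ c * n := Nat.mul_le_mul_right n h5
            rw [add_mul, one_mul] at e3
            omega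
        · omega
      refine ⟨_, spI_cor (t := t) hp t1 (bd_add hSt.bd a) g1 g2 ?_ ?_ ?_ ?_⟩
      · rw [hk, key.1]
        simp [Uni.onFr]
      · simp [Uni.IsDob, key.2.1]
      · rw [hk]
        exact fun _ => key.2.2
      · exact fun h => absurd h key.2.1

end Vale.Agent.P167.H975
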