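import Vale.Agent.P167.H975.LkM

/-!
# P167, general `q`, block Q-LAM (LK): `LK`
-/

namespace Vale.Agent.P167.H975

open Finset Filter Topology Vale.Agent.P167.BR
open Vale.Agent.P167.E6 (IsPolygon Encloses dir face)
open Vale.Agent.P167.FK (Bq Good Ex RSW eta0 eta1)
open Vale.Agent.P167.H192.Q (SRSW)
open Vale.Agent.P167.H871 (Bd vec_fin)
open Vale.Agent.P167.H718 (Dob poly_add encl_add bd_add)
open Vale.Agent.P167.H601.LG (GeoN Spe SepL Typ exists_low_loc)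
open Vale.Agent.P167.H825 (enl pdir)
open Vale.Agent.P167.H825.Q (Bc)
open Vale.Agent.P167.Enl
open Vale.Agent.P167.H718.Lam

theorem tau_mod {r : Fin 4} {x : ℤ} (h : Top.vec x = dir r) : x % 4 = ((r.val : ℕ) : ℤ) := by
  rw [← vec_fin] at h
  have h5 := vec_eq_mod h
  have h6 := r.isLt
  omega

theorem val_succ : ∀ r s : Fin 4, r = s + 1 → (r.val : ℤ) = s.val + 1 ∨ (r.val = 0 ∧ s.val = 3) := by
  decide

/-- **The types of the unit polygons.** -/
theorem typ_uni {U : Uni} (hU : U.Ok) {θ β : ℝ} (hβ : β = (θ - Real.pi) / 2) :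
    ∀ᶠ n : ℕ in atTop, ∀ (a : ℤ × ℤ) (τ : ℕ → ℤ) (η : Cfg), U.St n a τ η →
      Typ (U.l * n) (U.k n) τ β θ := by
  obtain ⟨l, p, S, bc, tp⟩ := U
  obtain ⟨hp, hD, hB⟩ := hU
  have hl2 : 2 < l := hp.1
  have hl : NeZero l := ⟨by omega⟩
  have hpl : pdir p l = pdir p 0 := by
    have := pdir_add (p := p) 0
    rwa [zero_add] at this
  have fw : ∀ bc : Bc, (bc = .free ∨ bc = .wired) → tp = 0 → pdir p 0 = pdir p (l - 1) + 1 →
      ∀ᶠ n : ℕ in atTop, ∀ (a : ℤ × ℤ) (τ : ℕ → ℤ) (η : Cfg), (⟨l, p, S, bc, tp⟩ : Uni).St n a τ η →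
      Typ (l * n) ((⟨l, p, S, bc, tp⟩ : Uni).k n) τ β θ := by
    intro bc hbc htp hcor
    filter_upwards [eventually_gt_atTop 0] with n hn a τ η hSt
    have ht : (⟨l, p, S, bc, tp⟩ : Uni).t n = 0 := by
      show ⌊tp * (n : ℝ)⌋₊ = 0
      rw [htp, zero_mul, Nat.floor_zero]
    have hk : (⟨l, p, S, bc, tp⟩ : Uni).k n = 0 ∨ (⟨l, p, S, bc, tp⟩ : Uni).k n = l * n := by
      rcases hbc with rfl | rfl
      · exact Or.inr rfl
      · exact Or.inl rfl
    have hu := bd_add hSt.bd a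
    have hN : l * n = (l - 1) * n + n := by
      have : (l - 1 + 1) * n = (l - 1) * n + n := by ring
      rw [← this]
      congr 1
      omega
    have hv := vec_dir (τ := τ)
      (q := fun i => qN p n ((⟨l, p, S, bc, tp⟩ : Uni).t n) i + a) hn hp
      (qa_eq (a := a) hp hn _) hu
    have v1 := hv (l * n)
    have v2 := hv (l * n - 1)
    have e1 : (l * n + 0) / n = l := by
      rw [add_zero]
      exact Nat.mul_div_cancel _ hn
    have e2 : (l * n - 1 + 0) / n = l - 1 := by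
      have h2 : l * n - 1 + 0 = n - 1 + (l - 1) * n := by omega
      rw [h2, Nat.add_mul_div_right _ _ hn, Nat.div_eq_of_lt (by omega), zero_add]
    rw [ht, e1, hpl] at v1
    rw [ht, e2] at v2
    have m1 := tau_mod v1
    have m2 := tau_mod v2
    have h3 := hu.turn (l * n - 1)
    rw [show l * n - 1 + 1 = l * n by omega, abs_le] at h3
    have h4 := val_succ _ _ hcor
    refine ⟨?_, fun _ => ?_, fun h5 h6 => ?_, hβ⟩
    · rcases hk with h | h <;> rw [h]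
      exact Nat.zero_le _
    · push_cast at *
      omega
    · omega
  cases bc with
  | free => exact fw _ (Or.inl rfl) hB.1 hB.2
  | wired => exact fw _ (Or.inr rfl) hB.1 hB.2
  | dob ia ta =>
    obtain ⟨h0, h1, b1, b2, b3, b4, b5, b6⟩ := hB
    simp only at h0 h1 b1 b2 b3 b4 b5 b6
    filter_upwards [ev_dob h0 h1 b3 b4] with n hn a τ η hSt
    obtain ⟨hn, t0, t1, s0, s1⟩ := hn
    set t := ⌊tp * (n : ℝ)⌋₊ with ht
    set σ := ⌊ta * (n : ℝ)⌋₊ with hσ
    have e1 : 1 * n ≤ ia * n := Nat.mul_le_mul_right n b1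
    have e2 : (ia + 1) * n ≤ l * n := Nat.mul_le_mul_right n b2
    rw [one_mul] at e1
    rw [add_mul, one_mul] at e2
    have hk : (⟨l, p, S, .dob ia ta, tp⟩ : Uni).k n = ia * n + σ - t := by
      show kOf l n t ia σ = _
      unfold kOf
      rw [if_pos (by omega)]
    have hu := bd_add hSt.bd a
    have hv := vec_dir (τ := τ) (q := fun i => qN p n t i + a) hn hp (qa_eq (a := a) hp hn _) hu
    have v1 := hv (l * n)
    have v2 := hv (l * n - 1)
    have v3 := hv (ia * n + σ - t)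
    have v4 := hv (ia * n + σ - t - 1)
    have d1 : (l * n + t) / n = l := by
      rw [add_comm, Nat.add_mul_div_right _ _ hn, Nat.div_eq_of_lt t1, zero_add]
    have d2 : (l * n - 1 + t) / n = l := by
      have h2 : l * n - 1 + t = t - 1 + l * n := by omega
      rw [h2, Nat.add_mul_div_right _ _ hn, Nat.div_eq_of_lt (by omega), zero_add]
    have d3 : (ia * n + σ - t + t) / n = ia := by
      have h2 : ia * n + σ - t + t = σ + ia * n := by omega
      rw [h2, Nat.add_mul_div_right _ _ hn, Nat.div_eq_of_lt s1, zero_add]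
    have d4 : (ia * n + σ - t - 1 + t) / n = ia := by
      have h2 : ia * n + σ - t - 1 + t = σ - 1 + ia * n := by omega
      rw [h2, Nat.add_mul_div_right _ _ hn, Nat.div_eq_of_lt (by omega), zero_add]
    rw [d1] at v1
    rw [d2] at v2
    rw [d3] at v3
    rw [d4] at v4
    have m1 := tau_mod v1
    have m2 := tau_mod v2
    have m3 := tau_mod v3
    have m4 := tau_mod v4
    have h3 := hu.turn (l * n - 1)
    have h4 := hu.turn (ia * n + σ - t - 1)
    rw [show l * n - 1 + 1 = l * n by omega, abs_le] at h3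
    rw [show ia * n + σ - t - 1 + 1 = ia * n + σ - t by omega, abs_le] at h4
    refine ⟨?_, fun h5 => ?_, fun h5 h6 => ?_, hβ⟩
    · rw [hk]
      show ia * n + σ - t ≤ l * n
      omega
    · rw [hk] at h5
      change ia * n + σ - t = 0 ∨ ia * n + σ - t = l * n at h5
      omega
    · rw [hk]
      show τ (l * n) = τ (l * n - 1) ∧ _
      omega

theorem TL_eq (w : Finset Ed → ℝ) (D : Finset (ℤ × ℤ)) (x : ℤ × ℤ) (r : ℕ) :
    TL w D x r = TX w D x (r : ℤ) := by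
  classical
  funext ω
  unfold TL TX
  refine prod_congr ?_ fun _ _ => rfl
  ext A
  simp only [mem_filter, Ins]

theorem wI_eq {N : ℕ} (θ β : ℝ) (q : ZMod N → ℤ × ℤ) (D : Finset (ℤ × ℤ)) (k : ℕ) (τ : ℕ → ℤ) :
    wI θ β q D k τ = wJ θ β q D k τ := rfl

/-- **[LK]** -/
theorem lk {θ β : ℝ} (h0 : 0 < θ) (h1 : θ ≤ Real.pi / 3) (hβ : β = (θ - Real.pi) / 2)
    (hR : RSW (2 * Real.cos θ)) (hSR : SRSW (2 * Real.cos θ)) : LK θ β := by
  intro U U' hU hU' o ho o' ho' hkd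
  have hcos : 1 / 2 ≤ Real.cos θ := by
    rw [← Real.cos_pi_div_three]
    exact Real.cos_le_cos_of_nonneg_of_le_pi h0.le (by linarith [Real.pi_pos]) h1
  obtain ⟨K, hK, key⟩ := lkd_two (Q := 2 * Real.cos θ) (by linarith) hR hSR
  obtain ⟨c, hc0, -, hlow⟩ := exists_low_loc h0 h1
  obtain ⟨δ, hδ, hδ4, e1⟩ := lkd_uni hU
  obtain ⟨δ', hδ', hδ4', e1'⟩ := lkd_uni hU'
  obtain ⟨ε, hε, hεd, hεd'⟩ : ∃ ε : ℝ, 0 < ε ∧ ε ≤ δ ∧ ε ≤ δ' :=
    ⟨min δ δ', lt_min hδ hδ', min_le_left _ _, min_le_right _ _⟩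
  refine ⟨ε / (400 * K), by positivity, fun ρ hρ hρ0 => ⟨2, by norm_num, ?_⟩⟩
  have hρK : K * ρ ≤ ε / 400 := by
    have : K * ρ ≤ K * (ε / (400 * K)) := mul_le_mul_of_nonneg_left hρ0 (by linarith)
    refine this.trans (le_of_eq ?_)
    field_simp
  filter_upwards [e1, e1', spI_uni hU, spI_uni hU', typ_uni hU hβ, ev_lt 1000 hε, ev_lt 1 hρ]
    with n f1 f1' f2 f2' f3 f4 f5 a a' τ τ' η η' hSt hSt' hpar
  obtain ⟨η₀, hL⟩ := f1 a τ η hSt
  obtain ⟨η₀', hL'⟩ := f1' a' τ' η' hSt'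
  obtain ⟨j, hj⟩ := f2 a τ η hSt o ho
  obtain ⟨j', hj'⟩ := f2' a' τ' η' hSt' o' ho'
  have hT := f3 a τ η hSt
  rw [← hkd] at hj'
  have hn0 : (0 : ℝ) < n := by
    by_contra hc
    have : (n : ℝ) = 0 := le_antisymm (not_lt.1 hc) (Nat.cast_nonneg n)
    rw [this, mul_zero] at f4
    norm_num at f4
  set R : ℤ := ⌊ε / 200 * (n : ℝ)⌋ with hRd
  have r1 : (R : ℝ) ≤ ε / 200 * n := Int.floor_le _
  have r2 : ε / 200 * n < R + 1 := Int.lt_floor_add_one _
  have l1 : δ * n < ⌊δ * (n : ℝ)⌋₊ + 1 := Nat.lt_floor_add_one _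
  have l1' : δ' * n < ⌊δ' * (n : ℝ)⌋₊ + 1 := Nat.lt_floor_add_one _
  have d1 : ε * n ≤ δ * n := mul_le_mul_of_nonneg_right hεd hn0.le
  have d2 : ε * n ≤ δ' * n := mul_le_mul_of_nonneg_right hεd' hn0.le
  have d3 : δ * n ≤ 1 / 4 * n := mul_le_mul_of_nonneg_right hδ4 hn0.le
  have g1 : R ≤ ⌊δ / 200 * (n : ℝ)⌋ := Int.floor_le_floor (by nlinarith)
  have g2 : R ≤ ⌊δ' / 200 * (n : ℝ)⌋ := Int.floor_le_floor (by nlinarith)
  have g3 : 3 * (R + 1) < n := by
    have : ((3 * (R + 1) : ℤ) : ℝ) < ((n : ℤ) : ℝ) := by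
      push_cast
      linarith
    exact_mod_cast this
  have g4 : 4 * (R + 1) < ⌊δ * (n : ℝ)⌋₊ := by
    have : ((4 * (R + 1) : ℤ) : ℝ) < ((⌊δ * (n : ℝ)⌋₊ : ℤ) : ℝ) := by
      push_cast
      linarith
    exact_mod_cast this
  have g5 : 4 * (R + 1) < ⌊δ' * (n : ℝ)⌋₊ := by
    have : ((4 * (R + 1) : ℤ) : ℝ) < ((⌊δ' * (n : ℝ)⌋₊ : ℤ) : ℝ) := by
      push_cast
      linarith
    exact_mod_cast this
  set r : ℕ := ⌊ρ * (n : ℝ)⌋₊ with hr
  have q1 : (r : ℝ) ≤ ρ * n := Nat.floor_le (by positivity)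
  have q2 : 1 ≤ r := Nat.floor_pos.2 f5.le
  have q3 : K * (r : ℝ) ≤ R := by
    have h2 : K * (r : ℝ) ≤ K * (ρ * n) := mul_le_mul_of_nonneg_left q1 (by linarith)
    have h3 : K * (ρ * n) ≤ ε / 400 * n := by
      rw [← mul_assoc]
      exact mul_le_mul_of_nonneg_right hρK hn0.le
    linarith
  have q4 : (r : ℤ) ≤ R := by
    have h2 : (r : ℝ) ≤ K * r := by
      have : (0 : ℝ) ≤ r := Nat.cast_nonneg r
      nlinarith
    have : ((r : ℤ) : ℝ) ≤ (R : ℝ) := by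
      push_cast
      linarith
    exact_mod_cast this
  have q5 : (1 : ℤ) ≤ r := by exact_mod_cast q2
  -- nonnegative weights
  have hpos : ∀ ω, 0 ≤ TX (wJ θ β (U.qa n a) (U.Da n a) (U.k n) τ) (U.Da n a)
      (U.qa n a (j : ZMod (U.l * n))) (r : ℤ) ω := by
    intro ω
    unfold TX
    refine prod_nonneg fun A hA => ?_
    rw [mem_filter] at hA
    rcases hlow hL.geo hL.poly hL.enc hA.1 hL.sep hT (r := (r : ℤ)) (by omega) (by omega) hj.lt hj.sp
      hA.2 with h | ⟨h2, h3, h4, -⟩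
    · exact (hc0.le.trans h)
    · exact absurd h4 (hj.jn (by omega))
  have hev : Even ((U'.qa n a' (j' : ZMod (U'.l * n)) - U.qa n a (j : ZMod (U.l * n))).1 +
      (U'.qa n a' (j' : ZMod (U'.l * n)) - U.qa n a (j : ZMod (U.l * n))).2) := by
    rw [hj.pt, hj'.pt]
    have h2 : (U'.pt n a' o' - U.pt n a o).1 + (U'.pt n a' o' - U.pt n a o).2 =
        ((U'.pt n a' o').1 + (U'.pt n a' o').2) - ((U.pt n a o).1 + (U.pt n a o).2) := by
      simp only [Prod.fst_sub, Prod.snd_sub]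
      ring
    rw [h2, Int.even_sub]
    exact hpar.symm
  have := (key (θ := θ) (β := β) (r := (r : ℤ)) hL hL' g1 g2 g3 g3 (by omega) (by omega) hj.lt
    hj'.lt hj.sp hj'.sp (hj.same hj') hev (by linarith) q5 (by exact_mod_cast q3) hpos hSt.dob
    hSt'.dob).1
  rw [hj.pt, hj'.pt] at this
  unfold Uni.w
  rw [TL_eq, TL_eq, wI_eq, wI_eq]
  exact this

end Vale.Agent.P167.H975
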